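import Vale.Agent.P189.H741.Iface

set_option autoImplicit false

open MeasureTheory
open scoped ENNReal Pointwise

namespace Vale.Agent.P189

namespace M

/-- ROW C: the set of costs is convex (disjoint union of the two actions with weights). -/
def ConvSt : Prop :=
  ∀ (G : Type) [Group G] [Countable G] (a b c d : ℝ≥0∞), a + b = 1 → Attains G c →
    Attains G d → Attains G (a * c + b * d)

/-- ROW FU: a space on which the copies in `s` act trivially and the others percolate. -/
def MidUpperSt : Prop :=
  ∀ (G ι : Type) [Group G] [Countable G] [Countable ι] (p q : ι → G) (t : G),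
    MultiData G ι p q t →
    (∀ (K : Type) [Group K] (a b : ι → K), (∀ i, a i ^ 3 = 1) → (∀ i, b i ^ 3 = 1) →
      ∃ φ : G →* K, (∀ i, φ (p i) = a i) ∧ (∀ i, φ (q i) = b i) ∧ φ t = 1) →
    ∀ s : Finset ι, ∃ (V : Type) (_ : MeasurableSpace V) (_ : StandardBorelSpace V)
      (ν : Measure V) (_ : IsProbabilityMeasure ν) (_ : MulAction G V)
      (_ : MeasurableConstSMul G V) (_ : SMulInvariantMeasure G V ν),
      (∀ g ∈ sub p q t (s : Set ι), ∀ v : V, g • v = v) ∧
      ∀ (X : Type) [MeasurableSpace X] [StandardBorelSpace X] (μ : Measure X)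
        [IsProbabilityMeasure μ] [MulAction G X] [MeasurableConstSMul G X]
        [SMulInvariantMeasure G X μ], EssentiallyFree G X μ →
        actionCost G (X × V) (μ.prod ν) ≤ 1 + (s.card : ℝ≥0∞)

end M

end Vale.Agent.P189
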