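import Vale.Agent.P189.H741.Iface2

set_option autoImplicit false

open MeasureTheory
open scoped ENNReal Pointwise

namespace Vale.Agent.P189.M

section Borel

theorem borel_sum {X Y : Type} [TopologicalSpace X] [TopologicalSpace Y] [MeasurableSpace X]
    [MeasurableSpace Y] [BorelSpace X] [BorelSpace Y] : BorelSpace (X ⊕ Y) := by
  constructor
  apply le_antisymm
  · intro s hs
    have h1 : MeasurableSet (Sum.inl ⁻¹' s : Set X) := (measurable_inl hs : _)
    have h2 : MeasurableSet (Sum.inr ⁻¹' s : Set Y) := (measurable_inr hs : _)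
    let _ : MeasurableSpace (X ⊕ Y) := borel (X ⊕ Y)
    have : BorelSpace (X ⊕ Y) := ⟨rfl⟩
    have e1 : MeasurableEmbedding (Sum.inl : X → X ⊕ Y) :=
      Topology.IsOpenEmbedding.inl.measurableEmbedding
    have e2 : MeasurableEmbedding (Sum.inr : Y → X ⊕ Y) :=
      Topology.IsOpenEmbedding.inr.measurableEmbedding
    have h3 : s = Sum.inl '' (Sum.inl ⁻¹' s : Set X) ∪ Sum.inr '' (Sum.inr ⁻¹' s : Set Y) :=
      (Set.image_preimage_inl_union_image_preimage_inr s).symm
    rw [h3]
    exact (e1.measurableSet_image.2 h1).union (e2.measurableSet_image.2 h2)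
  · rw [borel, MeasurableSpace.generateFrom_le_iff]
    intro s hs
    have hs' : IsOpen s := hs
    exact ⟨(hs'.preimage continuous_inl).measurableSet, (hs'.preimage continuous_inr).measurableSet⟩

theorem standardBorel_sum {X Y : Type} [MeasurableSpace X] [MeasurableSpace Y]
    [StandardBorelSpace X] [StandardBorelSpace Y] : StandardBorelSpace (X ⊕ Y) := by
  let _ := upgradeStandardBorel X
  let _ := upgradeStandardBorel Y
  have := borel_sum (X := X) (Y := Y)
  have : PolishSpace (X ⊕ Y) := {}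
  infer_instance

end Borel

section Sum

variable {G X Y : Type} [Group G] [MulAction G X] [MulAction G Y]

theorem conn_inl {D : G → Set (X ⊕ Y)} {z w : X ⊕ Y} (h : Conn D z w) :
    (∀ x, z = Sum.inl x → ∃ x', w = Sum.inl x' ∧ Conn (fun g => Sum.inl ⁻¹' D g) x x') ∧
    (∀ x', w = Sum.inl x' → ∃ x, z = Sum.inl x ∧ Conn (fun g => Sum.inl ⁻¹' D g) x x') := by
  induction h with
  | rel a b h =>
    obtain ⟨g, hg, rfl⟩ := h
    constructor
    · rintro x rfl
      exact ⟨g • x, rfl, Conn.of_mem (D := fun g => Sum.inl ⁻¹' D g) hg⟩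
    · intro x' hx'
      cases a with
      | inl x =>
        have : g • x = x' := Sum.inl_injective hx'
        subst this
        exact ⟨x, rfl, Conn.of_mem (D := fun g => Sum.inl ⁻¹' D g) hg⟩
      | inr y =>
        have : (Sum.inr (g • y) : X ⊕ Y) = Sum.inl x' := hx'
        cases this
  | refl a =>
    exact ⟨fun x hx => ⟨x, hx, Conn.refl _ _⟩, fun x hx => ⟨x, hx, Conn.refl _ _⟩⟩
  | symm a b _ ih =>
    constructor
    · intro x hx
      obtain ⟨x', h1, h2⟩ := ih.2 x hx
      exact ⟨x', h1, h2.symm⟩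
    · intro x hx
      obtain ⟨x', h1, h2⟩ := ih.1 x hx
      exact ⟨x', h1, h2.symm⟩
  | trans a b c _ _ ih1 ih2 =>
    constructor
    · intro x hx
      obtain ⟨x', h1, h2⟩ := ih1.1 x hx
      obtain ⟨x'', h3, h4⟩ := ih2.1 x' h1
      exact ⟨x'', h3, h2.trans h4⟩
    · intro x hx
      obtain ⟨x', h1, h2⟩ := ih2.2 x hx
      obtain ⟨x'', h3, h4⟩ := ih1.2 x' h1
      exact ⟨x'', h3, h4.trans h2⟩

theorem conn_swap {D : G → Set (X ⊕ Y)} {z w : X ⊕ Y} (h : Conn D z w) :
    Conn (fun g => Sum.swap ⁻¹' D g) (z.swap : Y ⊕ X) w.swap := by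
  induction h with
  | rel a b h =>
    obtain ⟨g, hg, rfl⟩ := h
    have h1 : (g • a).swap = g • (a.swap : Y ⊕ X) := by
      cases a <;> rfl
    rw [h1]
    refine Conn.of_mem (D := fun g => Sum.swap ⁻¹' D g) ?_
    show (a.swap).swap ∈ D g
    rw [Sum.swap_swap]
    exact hg
  | refl a => exact Conn.refl _ _
  | symm a b _ ih => exact ih.symm
  | trans a b c _ _ ih1 ih2 => exact ih1.trans ih2

theorem conn_inl' {D : G → Set X} {D' : G → Set Y} {x x' : X} (h : Conn D x x') :
    Conn (fun g => Sum.inl '' D g ∪ Sum.inr '' D' g) (Sum.inl x : X ⊕ Y) (Sum.inl x') := by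
  induction h with
  | rel a b h =>
    obtain ⟨g, hg, rfl⟩ := h
    exact Conn.of_mem (D := fun g => Sum.inl '' D g ∪ Sum.inr '' D' g)
      (x := (Sum.inl a : X ⊕ Y)) (Or.inl ⟨a, hg, rfl⟩)
  | refl a => exact Conn.refl _ _
  | symm a b _ ih => exact ih.symm
  | trans a b c _ _ ih1 ih2 => exact ih1.trans ih2

theorem conn_inr' {D : G → Set X} {D' : G → Set Y} {y y' : Y} (h : Conn D' y y') :
    Conn (fun g => Sum.inl '' D g ∪ Sum.inr '' D' g) (Sum.inr y : X ⊕ Y) (Sum.inr y') := by
  induction h with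
  | rel a b h =>
    obtain ⟨g, hg, rfl⟩ := h
    exact Conn.of_mem (D := fun g => Sum.inl '' D g ∪ Sum.inr '' D' g)
      (x := (Sum.inr a : X ⊕ Y)) (Or.inr ⟨a, hg, rfl⟩)
  | refl a => exact Conn.refl _ _
  | symm a b _ ih => exact ih.symm
  | trans a b c _ _ ih1 ih2 => exact ih1.trans ih2

/-- The weighted sum of two measures. -/
noncomputable def sm [MeasurableSpace X] [MeasurableSpace Y] (a b : ℝ≥0∞) (μ : Measure X)
    (ν : Measure Y) : Measure (X ⊕ Y) :=
  a • μ.map Sum.inl + b • ν.map Sum.inr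

omit [Group G] [MulAction G X] [MulAction G Y] in
theorem sm_apply [MeasurableSpace X] [MeasurableSpace Y] (a b : ℝ≥0∞) (μ : Measure X)
    (ν : Measure Y) (s : Set (X ⊕ Y)) :
    sm a b μ ν s = a * μ (Sum.inl ⁻¹' s) + b * ν (Sum.inr ⁻¹' s) := by
  have e1 : MeasurableEmbedding (Sum.inl : X → X ⊕ Y) :=
    ⟨Sum.inl_injective, measurable_inl, fun _ hs => MeasurableSet.inl_image hs⟩
  have e2 : MeasurableEmbedding (Sum.inr : Y → X ⊕ Y) :=
    ⟨Sum.inr_injective, measurable_inr, fun _ hs => MeasurableSet.inr_image hs⟩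
  rw [sm, Measure.add_apply, Measure.smul_apply, Measure.smul_apply, e1.map_apply, e2.map_apply]
  rfl

omit [Group G] [MulAction G X] [MulAction G Y] in
theorem dcost_sm [MeasurableSpace X] [MeasurableSpace Y] (a b : ℝ≥0∞) (μ : Measure X)
    (ν : Measure Y) (D : G → Set (X ⊕ Y)) :
    dcost (sm a b μ ν) D = a * dcost μ (fun g => Sum.inl ⁻¹' D g) +
      b * dcost ν (fun g => Sum.inr ⁻¹' D g) := by
  unfold dcost
  rw [← ENNReal.tsum_mul_left, ← ENNReal.tsum_mul_left, ← ENNReal.tsum_add]
  exact tsum_congr fun g => sm_apply a b μ ν (D g)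

end Sum

theorem convSt : ConvSt := by
  intro G _ _ a b c d hab hc hd
  rcases eq_or_ne a 0 with rfl | ha
  · rw [zero_add] at hab
    rw [hab, zero_mul, one_mul, zero_add]
    exact hd
  rcases eq_or_ne b 0 with rfl | hb
  · rw [add_zero] at hab
    rw [hab, zero_mul, one_mul, add_zero]
    exact hc
  have hat : a ≠ ⊤ := by rintro rfl; simp at hab
  have hbt : b ≠ ⊤ := by rintro rfl; simp at hab
  obtain ⟨X, _, _, μ, _, _, hmX, hiX, hfX, rfl⟩ := hc
  obtain ⟨Y, _, _, ν, _, _, hmY, hiY, hfY, rfl⟩ := hd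
  have hsb : StandardBorelSpace (X ⊕ Y) := standardBorel_sum
  have hprob : IsProbabilityMeasure (sm a b μ ν) := ⟨by
    rw [sm_apply]
    simp [hab]⟩
  have hm : MeasurableConstSMul G (X ⊕ Y) := ⟨fun g => by
    refine measurable_fun_sum ?_ ?_
    · exact measurable_inl.comp (measurable_const_smul g)
    · exact measurable_inr.comp (measurable_const_smul g)⟩
  have hi : SMulInvariantMeasure G (X ⊕ Y) (sm a b μ ν) := ⟨fun g s hs => by
    rw [sm_apply, sm_apply]
    have h1 : (Sum.inl ⁻¹' ((fun z : X ⊕ Y => g • z) ⁻¹' s) : Set X) =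
        (fun x => g • x) ⁻¹' (Sum.inl ⁻¹' s) := rfl
    have h2 : (Sum.inr ⁻¹' ((fun z : X ⊕ Y => g • z) ⁻¹' s) : Set Y) =
        (fun x => g • x) ⁻¹' (Sum.inr ⁻¹' s) := rfl
    rw [h1, h2, measure_preimage_smul, measure_preimage_smul]⟩
  have hf : EssentiallyFree G (X ⊕ Y) (sm a b μ ν) := by
    intro g hg
    rw [sm_apply]
    have h1 : (Sum.inl ⁻¹' {z : X ⊕ Y | g • z = z} : Set X) = {x | g • x = x} := by
      ext x
      exact Sum.inl_injective.eq_iff (a := g • x) (b := x)
    have h2 : (Sum.inr ⁻¹' {z : X ⊕ Y | g • z = z} : Set Y) = {x | g • x = x} := by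
      ext x
      exact Sum.inr_injective.eq_iff (a := g • x) (b := x)
    rw [h1, h2, hfX g hg, hfY g hg]
    simp
  refine ⟨X ⊕ Y, inferInstance, hsb, sm a b μ ν, hprob, inferInstance, hm, hi, hf,
    le_antisymm ?_ ?_⟩
  · -- upper bound
    refine ENNReal.le_of_forall_pos_le_add fun ε hε hfin => ?_
    have hc' : actionCost G X μ ≠ ⊤ := by
      intro h
      rw [h, ENNReal.mul_top ha, top_add] at hfin
      exact lt_irrefl _ hfin
    have hd' : actionCost G Y ν ≠ ⊤ := by
      intro h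
      rw [h, ENNReal.mul_top hb, add_top] at hfin
      exact lt_irrefl _ hfin
    obtain ⟨D, hD, hDg, hDc⟩ := exists_labelled_of_lt μ
      (ENNReal.lt_add_right hc' (by simpa using hε.ne' : (ε : ℝ≥0∞) ≠ 0))
    obtain ⟨D', hD', hDg', hDc'⟩ := exists_labelled_of_lt ν
      (ENNReal.lt_add_right hd' (by simpa using hε.ne' : (ε : ℝ≥0∞) ≠ 0))
    have hgen : Gen (sm a b μ ν) (fun g => Sum.inl '' D g ∪ Sum.inr '' D' g) := by
      show sm a b μ ν _ = 0
      rw [sm_apply]
      have h1 : μ (Sum.inl ⁻¹' {z : X ⊕ Y | ∀ g : G,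
          Conn (fun g => Sum.inl '' D g ∪ Sum.inr '' D' g) z (g • z)}ᶜ) = 0 := by
        refine measure_mono_null (fun x hx => ?_) hDg
        intro h
        exact hx fun g => conn_inl' (h g)
      have h2 : ν (Sum.inr ⁻¹' {z : X ⊕ Y | ∀ g : G,
          Conn (fun g => Sum.inl '' D g ∪ Sum.inr '' D' g) z (g • z)}ᶜ) = 0 := by
        refine measure_mono_null (fun x hx => ?_) hDg'
        intro h
        exact hx fun g => conn_inr' (h g)
      rw [h1, h2]
      simp
    refine (actionCost_le_dcost (sm a b μ ν) _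
      (fun g => (hD g).inl_image.union (hD' g).inr_image) hgen).trans ?_
    rw [dcost_sm]
    have e1 : (fun g => (Sum.inl ⁻¹' (Sum.inl '' D g ∪ Sum.inr '' D' g) : Set X)) = D := by
      funext g
      rw [Set.preimage_union, Set.preimage_image_eq _ Sum.inl_injective]
      simp
    have e2 : (fun g => (Sum.inr ⁻¹' (Sum.inl '' D g ∪ Sum.inr '' D' g) : Set Y)) = D' := by
      funext g
      rw [Set.preimage_union, Set.preimage_image_eq _ Sum.inr_injective]
      simp
    rw [e1, e2]
    calc a * dcost μ D + b * dcost ν D'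
        ≤ a * (actionCost G X μ + ε) + b * (actionCost G Y ν + ε) := by gcongr
      _ = a * actionCost G X μ + b * actionCost G Y ν + (a + b) * ε := by ring
      _ = a * actionCost G X μ + b * actionCost G Y ν + ε := by rw [hab, one_mul]
  · -- lower bound
    refine le_actionCost_of_forall (sm a b μ ν) fun D hD hgen => ?_
    rw [dcost_sm]
    have hnull : sm a b μ ν {z | ∀ g : G, Conn D z (g • z)}ᶜ = 0 := hgen
    rw [sm_apply, add_eq_zero, mul_eq_zero, mul_eq_zero] at hnull
    have h1 := hnull.1.resolve_left ha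
    have h2 := hnull.2.resolve_left hb
    refine add_le_add (mul_le_mul_right (actionCost_le_dcost μ _
      (fun g => measurable_inl (hD g)) ?_) _) (mul_le_mul_right (actionCost_le_dcost ν _
      (fun g => measurable_inr (hD g)) ?_) _)
    · refine measure_mono_null ?_ h1
      intro x hx hx'
      refine hx fun g => ?_
      have h3 : Conn D (Sum.inl x : X ⊕ Y) (g • Sum.inl x) := hx' g
      obtain ⟨x', h4, h5⟩ := (conn_inl h3).1 x rfl
      have : g • x = x' := Sum.inl_injective h4
      rw [this]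
      exact h5
    · refine measure_mono_null ?_ h2
      intro x hx hx'
      refine hx fun g => ?_
      have h3 : Conn D (Sum.inr x : X ⊕ Y) (g • Sum.inr x) := hx' g
      obtain ⟨x', h4, h5⟩ := (conn_inl (conn_swap h3)).1 x rfl
      have : g • x = x' := Sum.inl_injective h4
      rw [this]
      exact h5

end Vale.Agent.P189.M
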