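import Vale.Agent.P189.Defs

set_option autoImplicit false

open MeasureTheory
open scoped ENNReal

namespace Vale.Agent.P189

/-- The relators of the group
`⟨p i, q i (i ∈ ι), t | p i ^ 3, q i ^ 3, [t, p i], [t, q i * p i * (q i)⁻¹]⟩`; the generators are
`p i = some (i, true)`, `q i = some (i, false)` and `t = none`. -/
def rels (ι : Type) : Set (FreeGroup (Option (ι × Bool))) :=
  let p : ι → FreeGroup (Option (ι × Bool)) := fun i => FreeGroup.of (some (i, true))
  let q : ι → FreeGroup (Option (ι × Bool)) := fun i => FreeGroup.of (some (i, false))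
  let t : FreeGroup (Option (ι × Bool)) := FreeGroup.of none
  ⋃ i, {p i ^ 3, q i ^ 3, t * p i * t⁻¹ * (p i)⁻¹,
    t * (q i * p i * (q i)⁻¹) * t⁻¹ * (q i * p i * (q i)⁻¹)⁻¹}

/-- The group `⟨p i, q i (i ∈ ι), t | p i ^ 3, q i ^ 3, [t, p i], [t, q i * p i * (q i)⁻¹]⟩`. -/
abbrev Gam (ι : Type) : Type := PresentedGroup (rels ι)

/-- `Γ` has an essentially free probability-measure-preserving action of cost `c` on a standard
probability space. -/
def Attains (Γ : Type) [Group Γ] (c : ℝ≥0∞) : Prop :=
  ∃ (X : Type) (_ : MeasurableSpace X) (_ : StandardBorelSpace X) (μ : Measure X)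
    (_ : IsProbabilityMeasure μ) (_ : MulAction Γ X) (_ : MeasurableConstSMul Γ X)
    (_ : SMulInvariantMeasure Γ X μ), EssentiallyFree Γ X μ ∧ actionCost Γ X μ = c

end Vale.Agent.P189
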