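import Vale.Agent.P189.H741.Iface

set_option autoImplicit false

open Function

namespace Vale.Agent.P189.M

open Grp

/-- The embedding of `ℤ` with image `⟨t⟩`. -/
noncomputable def zeta : Multiplicative ℤ →* GG := zpowersHom GG tt

theorem zeta_ofAdd (n : ℤ) : zeta (Multiplicative.ofAdd n) = tt ^ n := rfl

theorem zeta_one : zeta (Multiplicative.ofAdd 1) = tt := by
  rw [zeta_ofAdd, zpow_one]

theorem zeta_inj : Injective zeta := by
  rw [injective_iff_map_eq_one]
  intro a ha
  obtain ⟨n, rfl⟩ := Multiplicative.ofAdd.surjective a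
  rw [zeta_ofAdd] at ha
  have h1 : tt ^ n.natAbs = 1 := by
    rcases Int.natAbs_eq n with h | h
    · rw [h, zpow_natCast] at ha
      exact ha
    · rw [h, zpow_neg, zpow_natCast, inv_eq_one] at ha
      exact ha
  have h2 := groupData.tinf _ h1
  have h3 : n = 0 := Int.natAbs_eq_zero.1 h2
  rw [h3]
  rfl

theorem zeta_range : zeta.range = Subgroup.zpowers tt := by
  ext x
  constructor
  · rintro ⟨a, rfl⟩
    obtain ⟨n, rfl⟩ := Multiplicative.ofAdd.surjective a
    exact ⟨n, rfl⟩
  · rintro ⟨n, rfl⟩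
    exact ⟨Multiplicative.ofAdd n, rfl⟩

/-- The model: copies of `GG` amalgamated over `⟨t⟩`. -/
abbrev MG (ι : Type) : Type := Monoid.PushoutI (fun _ : ι => zeta)

/-- The embedding of the copy `i`. -/
noncomputable def ofM {ι : Type} (i : ι) : GG →* MG ι :=
  Monoid.PushoutI.of (φ := fun _ : ι => zeta) i

/-- The generators. -/
noncomputable def mp {ι : Type} (i : ι) : MG ι := ofM i pp
noncomputable def mq {ι : Type} (i : ι) : MG ι := ofM i qq
noncomputable def mt {ι : Type} : MG ι :=
  Monoid.PushoutI.base (fun _ : ι => zeta) (Multiplicative.ofAdd 1)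

theorem ofM_tt {ι : Type} (i : ι) : ofM i tt = mt := by
  rw [← zeta_one]
  exact Monoid.PushoutI.of_apply_eq_base (fun _ : ι => zeta) i _

theorem ofM_inj {ι : Type} (i : ι) : Injective (ofM i) :=
  Monoid.PushoutI.of_injective (φ := fun _ : ι => zeta) (fun _ => zeta_inj) i

end Vale.Agent.P189.M
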