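import Vale.Agent.P189.H741.Grp

set_option autoImplicit false

open Function

namespace Vale.Agent.P189.M

open Grp

/-! ### Homomorphisms -/

/-- The family of homomorphisms on the factors of `GG`. -/
noncomputable def homFamT {K : Type} [Group K] (f : G0 →* K) (g : (Lam × Multiplicative ℤ) →* K) :
    ∀ i, Fam i →* K
  | true => f
  | false => g

theorem exists_homT {K : Type} [Group K] (a b c : K) (ha : a ^ 3 = 1) (hb : b ^ 3 = 1)
    (h1 : c * a = a * c) (h2 : c * (b * a * b⁻¹) = (b * a * b⁻¹) * c) :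
    ∃ φ : GG →* K, φ pp = a ∧ φ qq = b ∧ φ tt = c := by
  set f := hom0 a b ha hb with hf
  have hcomm : ∀ x : G0, x ∈ Lam → Commute (f x) c := by
    intro x hx
    induction hx using Subgroup.closure_induction with
    | mem x hx =>
      simp only [Set.mem_insert_iff, Set.mem_singleton_iff] at hx
      rcases hx with rfl | rfl
      · rw [hf, hom0_p]
        exact h1.symm
      · rw [map_mul, map_mul, map_inv, hf, hom0_p, hom0_q]
        exact h2.symm
    | one => rw [map_one]; exact Commute.one_left _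
    | mul x y _ _ hx hy => rw [map_mul]; exact Commute.mul_left hx hy
    | inv x _ hx => rw [map_inv]; exact Commute.inv_left hx
  let g : (Lam × Multiplicative ℤ) →* K :=
    MonoidHom.noncommCoprod (f.comp Lam.subtype) (zpowersHom K c) (by
      intro m n
      show Commute (f (m : G0)) (zpowersHom K c n)
      rw [zpowersHom_apply]
      exact (hcomm m m.2).zpow_right _)
  let φ : GG →* K := Monoid.PushoutI.lift (homFamT f g) (f.comp Lam.subtype) (by
    intro i
    cases i with
    | true => rfl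
    | false =>
      ext x
      show g (x, 1) = f (x : G0)
      simp [g, MonoidHom.noncommCoprod_apply])
  have e1 : ∀ x : G0, φ (oA x) = f x := fun x =>
    Monoid.PushoutI.lift_of (φ := phi) (homFamT f g) (f.comp Lam.subtype) _ (i := true) x
  have e2 : ∀ x : Lam × Multiplicative ℤ, φ (oB x) = g x := fun x =>
    Monoid.PushoutI.lift_of (φ := phi) (homFamT f g) (f.comp Lam.subtype) _ (i := false) x
  refine ⟨φ, ?_, ?_, ?_⟩
  · rw [pp, e1, hf, hom0_p]
  · rw [qq, e1, hf, hom0_q]
  · rw [tt, e2]
    simp [g, MonoidHom.noncommCoprod_apply]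

theorem exists_homM {ι K : Type} [Group K] (a b : ι → K) (c : K) (ha : ∀ i, a i ^ 3 = 1)
    (hb : ∀ i, b i ^ 3 = 1) (h1 : ∀ i, c * a i = a i * c)
    (h2 : ∀ i, c * (b i * a i * (b i)⁻¹) = (b i * a i * (b i)⁻¹) * c) :
    ∃ φ : MG ι →* K, (∀ i, φ (mp i) = a i) ∧ (∀ i, φ (mq i) = b i) ∧ φ mt = c := by
  choose f hfp hfq hft using fun i => exists_homT (a i) (b i) c (ha i) (hb i) (h1 i) (h2 i)
  have hcomp : ∀ i, (f i).comp ((fun _ : ι => zeta) i) = zpowersHom K c := by
    intro i
    refine MonoidHom.ext_mint ?_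
    show f i (zeta (Multiplicative.ofAdd 1)) = _
    rw [zeta_one, hft, zpowersHom_apply]
    simp
  let φ : MG ι →* K := Monoid.PushoutI.lift f (zpowersHom K c) hcomp
  have e1 : ∀ i (x : GG), φ (ofM i x) = f i x := fun i x =>
    Monoid.PushoutI.lift_of (φ := fun _ : ι => zeta) f (zpowersHom K c) hcomp x
  refine ⟨φ, fun i => ?_, fun i => ?_, ?_⟩
  · rw [mp, e1, hfp]
  · rw [mq, e1, hfq]
  · have := Monoid.PushoutI.lift_base (φ := fun _ : ι => zeta) f (zpowersHom K c) hcomp
      (Multiplicative.ofAdd 1)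
    rw [mt]
    refine this.trans ?_
    rw [zpowersHom_apply]
    simp

/-! ### Per-copy facts -/

section Copy

variable {ι : Type} (i : ι)

theorem map_A : (Subgroup.closure {pp, qq}).map (ofM i) = Subgroup.closure {mp i, mq i} := by
  rw [MonoidHom.map_closure, Set.image_insert_eq, Set.image_singleton]
  rfl

theorem map_r : ofM i (qq * pp * qq⁻¹) = mq i * mp i * (mq i)⁻¹ := by
  simp [mp, mq]

theorem map_B : (Subgroup.closure {pp, qq * pp * qq⁻¹, tt}).map (ofM i) =
    Subgroup.closure {mp i, mq i * mp i * (mq i)⁻¹, mt} := by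
  rw [MonoidHom.map_closure, Set.image_insert_eq, Set.image_insert_eq, Set.image_singleton,
    map_r, ofM_tt]
  rfl

theorem map_C : (Subgroup.closure {pp, qq * pp * qq⁻¹}).map (ofM i) =
    Subgroup.closure {mp i, mq i * mp i * (mq i)⁻¹} := by
  rw [MonoidHom.map_closure, Set.image_insert_eq, Set.image_singleton, map_r]
  rfl

theorem m_color : ∃ TP TN : Set (MG ι), Disjoint TP TN ∧ TwoOfThree (mp i) TP ∧
    TwoOfThree (mq i) TN := by
  obtain ⟨TP, TN, hd, hTP, hTN⟩ := groupData.color
  obtain ⟨S, hS, -⟩ := ((ofM i).range).exists_isComplement_right (1 : MG ι)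
  let oe : GG ≃* (ofM i).range := MonoidHom.ofInjective (ofM_inj i)
  let γ : MG ι → GG := fun g => oe.symm (hS.equiv g).1
  have hγ : ∀ (x : GG) (g : MG ι), γ (ofM i x * g) = x * γ g := by
    intro x g
    have h1 : hS.equiv (ofM i x * g) = (oe x * (hS.equiv g).1, (hS.equiv g).2) :=
      hS.equiv_mul_left (oe x) g
    show oe.symm (hS.equiv (ofM i x * g)).1 = x * oe.symm (hS.equiv g).1
    rw [h1, map_mul, MulEquiv.symm_apply_apply]
  have key : ∀ (a : GG) (T : Set GG), TwoOfThree a T → TwoOfThree (ofM i a) (γ ⁻¹' T) := by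
    intro a T hT g
    have h1 : γ (ofM i a • g) = a • γ g := hγ a g
    have h2 : γ (ofM i a • ofM i a • g) = a • a • γ g := by
      rw [← h1]
      exact hγ a _
    have h3 := hT (γ g)
    rw [← h2, ← h1] at h3
    exact h3
  exact ⟨γ ⁻¹' TP, γ ⁻¹' TN, hd.preimage γ, key pp TP hTP, key qq TN hTN⟩

end Copy

theorem m_gen {ι : Type} : sub mp mq (mt : MG ι) Set.univ = ⊤ := by
  set K := sub mp mq (mt : MG ι) Set.univ with hK
  have ht : (mt : MG ι) ∈ K := Subgroup.subset_closure (Or.inr rfl)
  have hof : ∀ (i : ι) (g : GG), ofM i g ∈ K := by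
    intro i g
    have h1 : Subgroup.map (ofM i) ⊤ ≤ K := by
      rw [← closure_all, MonoidHom.map_closure, Subgroup.closure_le]
      rintro _ ⟨x, hx, rfl⟩
      simp only [Set.mem_insert_iff, Set.mem_singleton_iff] at hx
      rcases hx with rfl | rfl | rfl
      · exact Subgroup.subset_closure (Or.inl (Or.inl ⟨i, trivial, rfl⟩))
      · exact Subgroup.subset_closure (Or.inl (Or.inr ⟨i, trivial, rfl⟩))
      · rw [ofM_tt]; exact ht
    exact h1 ⟨g, trivial, rfl⟩
  rw [eq_top_iff]
  intro x _
  induction x using Monoid.PushoutI.induction_on with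
  | of i g => exact hof i g
  | base h =>
    obtain ⟨n, rfl⟩ := Multiplicative.ofAdd.surjective h
    have h1 : Monoid.PushoutI.base (fun _ : ι => zeta) (Multiplicative.ofAdd n) =
        (mt : MG ι) ^ n := by
      rw [mt, ← map_zpow]
      congr 1
      rw [← ofAdd_zsmul]
      simp
    rw [h1]
    exact K.zpow_mem ht n
  | mul x y hx hy => exact K.mul_mem (hx trivial) (hy trivial)

/-- Everything except the splitting facts. -/
theorem multiData_of {ι : Type}
    (hnf : ∀ J J' : Set ι, Disjoint J J' →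
      NormalForm (sub mp mq (mt : MG ι) J) (sub mp mq (mt : MG ι) J'))
    (hinf : ∀ J J' : Set ι, Disjoint J J' →
      sub mp mq (mt : MG ι) J ⊓ sub mp mq (mt : MG ι) J' = Subgroup.zpowers mt) :
    MultiData (MG ι) ι mp mq mt where
  p3 i := by rw [mp, ← map_pow, groupData.p3, map_one]
  q3 i := by rw [mq, ← map_pow, groupData.q3, map_one]
  p1 i h := groupData.p1 (ofM_inj i (h.trans (map_one _).symm))
  q1 i h := groupData.q1 (ofM_inj i (h.trans (map_one _).symm))
  tp i := by rw [← ofM_tt i, mp, ← map_mul, groupData.tp, map_mul]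
  tr i := by rw [← map_r, ← ofM_tt i, ← map_mul, groupData.tr, map_mul]
  tinf n hn := by
    rw [mt, ← map_pow, ← map_one (Monoid.PushoutI.base (fun _ : ι => zeta))] at hn
    have h1 := Monoid.PushoutI.base_injective (φ := fun _ : ι => zeta) (fun _ => zeta_inj) hn
    rw [← ofAdd_nsmul] at h1
    have h4 := Multiplicative.ofAdd.injective (h1.trans ofAdd_zero.symm)
    simpa using h4
  gen := m_gen
  nf i := by
    have := nf_map groupData.nf (ofM i) (ofM_inj i)
    rwa [map_A, map_B] at this
  inf i := by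
    have h1 := Subgroup.map_inf (Subgroup.closure {pp, qq})
      (Subgroup.closure {pp, qq * pp * qq⁻¹, tt}) (ofM i) (ofM_inj i)
    rw [groupData.inf, map_A, map_B, map_C] at h1
    exact h1.symm
  nf0 i := by
    have := nf_map groupData.nf0 (ofM i) (ofM_inj i)
    rwa [MonoidHom.map_zpowers, MonoidHom.map_zpowers] at this
  inf0 i := by
    have h1 := Subgroup.map_inf (Subgroup.zpowers pp) (Subgroup.zpowers qq) (ofM i) (ofM_inj i)
    rw [groupData.inf0, Subgroup.map_bot, MonoidHom.map_zpowers, MonoidHom.map_zpowers] at h1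
    exact h1.symm
  color i := m_color i
  lift K _ a b ha hb := by
    obtain ⟨φ, h1, h2, h3⟩ := exists_homM (ι := ι) (fun _ => a) (fun _ => b) (1 : K)
      (fun _ => ha) (fun _ => hb) (fun _ => by simp) (fun _ => by simp)
    exact ⟨φ, h1, h2, h3⟩
  split_nf := hnf
  split_inf := hinf

end Vale.Agent.P189.M
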