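import Vale.Agent.P189.Bdl.B1
import Vale.Agent.P189.H741.Defs

set_option autoImplicit false

open MeasureTheory
open scoped ENNReal Pointwise

namespace Vale.Agent.P189.M

/-- The subgroup generated by `t` and the pairs `p i, q i` with `i ∈ J`. -/
def sub {G ι : Type} [Group G] (p q : ι → G) (t : G) (J : Set ι) : Subgroup G :=
  Subgroup.closure (p '' J ∪ q '' J ∪ {t})

/-- Everything needed about the group
`⟨p i, q i (i ∈ ι), t | p i ^ 3, q i ^ 3, [t, p i], [t, q i * p i * (q i)⁻¹]⟩`, which is the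
amalgam over `⟨t⟩ ≅ ℤ` of copies of the group `GG` of `GroupData`. -/
structure MultiData (G : Type) [Group G] (ι : Type) (p q : ι → G) (t : G) : Prop where
  p3 : ∀ i, p i ^ 3 = 1
  q3 : ∀ i, q i ^ 3 = 1
  p1 : ∀ i, p i ≠ 1
  q1 : ∀ i, q i ≠ 1
  tp : ∀ i, t * p i = p i * t
  tr : ∀ i, t * (q i * p i * (q i)⁻¹) = (q i * p i * (q i)⁻¹) * t
  tinf : ∀ n : ℕ, t ^ n = 1 → n = 0
  gen : sub p q t Set.univ = ⊤
  nf : ∀ i, NormalForm (Subgroup.closure {p i, q i})
    (Subgroup.closure {p i, q i * p i * (q i)⁻¹, t})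
  inf : ∀ i, Subgroup.closure {p i, q i} ⊓ Subgroup.closure {p i, q i * p i * (q i)⁻¹, t} =
    Subgroup.closure {p i, q i * p i * (q i)⁻¹}
  nf0 : ∀ i, NormalForm (Subgroup.zpowers (p i)) (Subgroup.zpowers (q i))
  inf0 : ∀ i, Subgroup.zpowers (p i) ⊓ Subgroup.zpowers (q i) = ⊥
  color : ∀ i, ∃ TP TN : Set G, Disjoint TP TN ∧ TwoOfThree (p i) TP ∧ TwoOfThree (q i) TN
  lift : ∀ (K : Type) [Group K] (a b : K), a ^ 3 = 1 → b ^ 3 = 1 →
    ∃ φ : G →* K, (∀ i, φ (p i) = a) ∧ (∀ i, φ (q i) = b) ∧ φ t = 1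
  split_nf : ∀ J J' : Set ι, Disjoint J J' → NormalForm (sub p q t J) (sub p q t J')
  split_inf : ∀ J J' : Set ι, Disjoint J J' → sub p q t J ⊓ sub p q t J' = Subgroup.zpowers t

/-- ROW G (model: `Monoid.PushoutI` over `Multiplicative ℤ` of copies of `Grp.GG`). -/
def GroupSt : Prop :=
  ∀ (ι : Type) [Countable ι], ∃ (G : Type) (_ : Group G) (p q : ι → G) (t : G),
    MultiData G ι p q t ∧
    ∀ (K : Type) [Group K] (a b : ι → K) (c : K), (∀ i, a i ^ 3 = 1) → (∀ i, b i ^ 3 = 1) →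
      (∀ i, c * a i = a i * c) → (∀ i, c * (b i * a i * (b i)⁻¹) = (b i * a i * (b i)⁻¹) * c) →
      ∃ φ : G →* K, (∀ i, φ (p i) = a i) ∧ (∀ i, φ (q i) = b i) ∧ φ t = c

/-- ROW U (upper bound): an essentially free action of cost exactly `1`. -/
def UpperSt : Prop :=
  ∀ (G ι : Type) [Group G] [Countable ι] (p q : ι → G) (t : G), MultiData G ι p q t →
    ∃ (Y : Type) (_ : MeasurableSpace Y) (_ : StandardBorelSpace Y) (ν : Measure Y)
      (_ : IsProbabilityMeasure ν) (_ : MulAction G Y) (_ : MeasurableConstSMul G Y)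
      (_ : SMulInvariantMeasure G Y ν), EssentiallyFree G Y ν ∧ actionCost G Y ν = 1

/-- ROW L (lower bound): the Bernoulli action of `G` has cost at least `1 + |s| / 81` for every
finite set `s` of indices. -/
def LowerSt : Prop :=
  ∀ (G ι : Type) [Group G] [Countable G] (p q : ι → G) (t : G), MultiData G ι p q t →
    ∀ (s : Finset ι) (D : G → Set (Bern G)), (∀ g, MeasurableSet (D g)) →
      Gen (bernMeasure G) D →
      1 + (s.card : ℝ≥0∞) * ENNReal.ofReal (1 / 81) ≤ dcost (bernMeasure G) D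

/-- The generators. -/
def gP {ι : Type} (i : ι) : Gam ι := PresentedGroup.of (some (i, true))
def gQ {ι : Type} (i : ι) : Gam ι := PresentedGroup.of (some (i, false))
def gT {ι : Type} : Gam ι := PresentedGroup.of none

/-- ROW E (the presented group is a model; from `GroupSt`). -/
def PresSt : Prop :=
  GroupSt → ∀ (ι : Type) [Countable ι], MultiData (Gam ι) ι gP gQ gT

end Vale.Agent.P189.M
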