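import Vale.Agent.P189.H741.Iface

set_option autoImplicit false

open MeasureTheory
open scoped ENNReal Pointwise

namespace Vale.Agent.P189.M

open RelCostAux CompressAux

/-- All edges with label in `S`. -/
def fl {G : Type} (X : Type) (S : Set G) (h : G) : Set X := {_x | h ∈ S}

/-- Keep finitely many labels. -/
theorem truncate_set {G X : Type} [Group G] [Countable G] [MeasurableSpace X]
    (μ : Measure X) [IsFiniteMeasure μ] [MulAction G X]
    [MeasurableConstSMul G X] [SMulInvariantMeasure G X μ]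
    (hfree : ∀ (g : G) (x : X), g • x = x → g = 1)
    (C : Set G) (Q : Finset G) (D : G → Set X) (hD : ∀ g, MeasurableSet (D g))
    (hgen : ∀ q ∈ Q, ∀ x : X, Conn (fun h => fl X C h ∪ D h) x (q • x))
    (η : ℝ≥0∞) (hη : 0 < η) :
    ∃ D' : G → Set X, (∀ g, MeasurableSet (D' g)) ∧ {g | (D' g).Nonempty}.Finite ∧
      (∀ g, (D' g).Nonempty → (D g).Nonempty ∨ g ∈ Q) ∧
      (∀ q ∈ Q, ∀ x : X, Conn (fun h => fl X C h ∪ D' h) x (q • x)) ∧
      dcost μ D' ≤ dcost μ D + η := by
  classical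
  let _ : Encodable G := Encodable.ofCountable G
  let Dn : ℕ → G → Set X := fun n g => {x | Encodable.encode g < n ∧ x ∈ D g}
  have hDn : ∀ n g, MeasurableSet (Dn n g) := fun n g =>
    (MeasurableSet.const _).inter (hD g)
  let Fn : ℕ → G → Set X := fun n h => fl X C h ∪ Dn n h
  have hFn : ∀ n g, MeasurableSet (Fn n g) := fun n g =>
    (MeasurableSet.const _).union (hDn n g)
  have hmono : ∀ m n, m ≤ n → ∀ g, Fn m g ⊆ Fn n g := by
    intro m n hmn g
    refine Set.union_subset_union_right _ ?_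
    rintro x ⟨h1, h2⟩
    exact ⟨lt_of_lt_of_le h1 hmn, h2⟩
  let bad : G → ℕ → Set X := fun q n => {x | Conn (Fn n) x (q • x)}ᶜ
  have hbad : ∀ q n, MeasurableSet (bad q n) := fun q n =>
    (measurableSet_conn hfree (hFn n) q).compl
  have hanti : ∀ q, Antitone (bad q) := by
    intro q m n hmn x hx hc
    exact hx (Conn.mono (hmono m n hmn) hc)
  have hinter : ∀ q ∈ Q, ⋂ n, bad q n = ∅ := by
    intro q hq
    refine Set.eq_empty_of_forall_notMem fun x hx => ?_
    have h1 : Conn (fun g => ⋃ n, Fn n g) x (q • x) := by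
      refine Conn.mono (fun g => ?_) (hgen q hq x)
      rintro y (hy | hy)
      · exact Set.mem_iUnion.2 ⟨0, Or.inl hy⟩
      · exact Set.mem_iUnion.2 ⟨Encodable.encode g + 1, Or.inr ⟨Nat.lt_succ_self _, hy⟩⟩
    obtain ⟨n, hn⟩ := RelCostAux.conn_iUnion hmono h1
    exact Set.mem_iInter.1 hx n hn
  have htend : Filter.Tendsto (fun n => ∑ q ∈ Q, μ (bad q n)) Filter.atTop
      (nhds (∑ q ∈ Q, (0 : ℝ≥0∞))) := by
    refine tendsto_finsetSum _ fun q hq => ?_
    have h := tendsto_measure_iInter_atTop (μ := μ) (fun n => (hbad q n).nullMeasurableSet)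
      (hanti q) ⟨0, measure_ne_top _ _⟩
    rw [hinter q hq, measure_empty] at h
    exact h
  rw [Finset.sum_const_zero] at htend
  obtain ⟨n, hn⟩ := (htend.eventually (gt_mem_nhds hη)).exists
  refine ⟨fun g => Dn n g ∪ {x | g ∈ Q ∧ x ∈ bad g n}, ?_, ?_, ?_, ?_, ?_⟩
  · intro g
    exact (hDn n g).union ((MeasurableSet.const _).inter (hbad g n))
  · have h1 : ({g : G | Encodable.encode g < n} ∪ (Q : Set G)).Finite := by
      refine Set.Finite.union ?_ (Finset.finite_toSet Q)
      exact Set.Finite.preimage (fun a _ b _ h => Encodable.encode_injective h)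
        (Set.finite_lt_nat n)
    refine h1.subset ?_
    rintro g ⟨x, hx | hx⟩
    · exact Or.inl hx.1
    · exact Or.inr hx.1
  · rintro g ⟨x, hx | hx⟩
    · exact Or.inl ⟨x, hx.2⟩
    · exact Or.inr hx.1
  · intro q hq x
    by_cases hx : x ∈ bad q n
    · exact Conn.of_mem (D := fun h => fl X C h ∪ (Dn n h ∪ {x | h ∈ Q ∧ x ∈ bad h n}))
        (Or.inr (Or.inr ⟨hq, hx⟩))
    · have h1 : Conn (Fn n) x (q • x) := by
        by_contra h
        exact hx h
      refine Conn.mono (fun g => ?_) h1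
      rintro y (hy | hy)
      · exact Or.inl hy
      · exact Or.inr (Or.inl hy)
  · calc dcost μ (fun g => Dn n g ∪ {x | g ∈ Q ∧ x ∈ bad g n})
        ≤ ∑' g, (μ (D g) + if g ∈ Q then μ (bad g n) else 0) := by
          refine ENNReal.tsum_le_tsum fun g => ?_
          refine (measure_union_le _ _).trans (add_le_add ?_ ?_)
          · exact measure_mono fun x hx => hx.2
          · by_cases hg : g ∈ Q
            · simp [hg]
            · simp [hg]
      _ = dcost μ D + ∑ q ∈ Q, μ (bad q n) := by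
          rw [ENNReal.tsum_add]
          congr 1
          rw [tsum_eq_sum (s := Q) (fun g hg => by rw [if_neg hg])]
          exact Finset.sum_congr rfl fun g hg => by rw [if_pos hg]
      _ ≤ dcost μ D + η := by gcongr

/-- C(R_G) ≥ 1 + rc(R_G : R_B), without truncation. -/
theorem relcost0 {G X : Type} [Group G] [Countable G] [MeasurableSpace X]
    [StandardBorelSpace X] (μ : Measure X) [IsProbabilityMeasure μ] [MulAction G X]
    [MeasurableConstSMul G X] [SMulInvariantMeasure G X μ]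
    (hfree : ∀ (g : G) (x : X), g • x = x → g = 1)
    (B : Subgroup G) [Infinite B]
    (D : G → Set X) (hD : ∀ g, MeasurableSet (D g))
    (hgen : ∀ (x : X) (g : G), Conn D x (g • x)) (η : ℝ≥0∞) (hη : 0 < η) :
    ∃ D' : G → Set X, (∀ g, MeasurableSet (D' g)) ∧
      (∀ (x : X) (g : G), Conn (fun h => fl X (B : Set G) h ∪ D' h) x (g • x)) ∧
      dcost μ D' + 1 ≤ dcost μ D + η := by
  classical
  have hfreeB : EssentiallyFree B X μ := by
    intro b hb
    have : {x : X | b • x = x} = ∅ := by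
      refine Set.eq_empty_of_forall_notMem fun x hx => hb ?_
      have h1 : (b : G) • x = x := hx
      exact Subtype.ext (hfree _ _ h1)
    rw [this, measure_empty]
  obtain ⟨E, hE, hμE, hEsec⟩ := exists_small_section (Γ := B) μ hfreeB hη
  obtain ⟨D1, hD1, hD1E, hD1c, hD1cost⟩ := compress_pointwise μ D hD E hE (by
    intro x
    obtain ⟨b, hb⟩ := hEsec x
    exact ⟨b • x, hb, hgen x (b : G)⟩)
  have hB : ∀ (b : B) (x : X), Conn (fun h => fl X (B : Set G) h ∪ D1 h) x ((b : G) • x) :=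
    fun b x => Conn.of_mem (D := fun h => fl X (B : Set G) h ∪ D1 h) (Or.inl b.2)
  refine ⟨D1, hD1, ?_, ?_⟩
  · intro x g
    obtain ⟨b, hb⟩ := hEsec x
    obtain ⟨b', hb'⟩ := hEsec (g • x)
    have h1 : Conn D ((b : G) • x) ((b' : G) • g • x) :=
      (hgen x b).symm.trans ((hgen x g).trans (hgen (g • x) b'))
    have h2 := hD1c _ hb _ hb' h1
    exact (hB b x).trans ((Conn.mono (fun g y hy => Or.inr hy) h2).trans (hB b' (g • x)).symm)
  · have h1 : (1 : ℝ≥0∞) ≤ μ Eᶜ + η := by
      calc (1 : ℝ≥0∞) = μ (Eᶜ ∪ E) := by simp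
        _ ≤ μ Eᶜ + μ E := measure_union_le _ _
        _ ≤ μ Eᶜ + η := by gcongr
    calc dcost μ D1 + 1 ≤ dcost μ D1 + (μ Eᶜ + η) := by gcongr
      _ = (dcost μ D1 + μ Eᶜ) + η := by ring
      _ ≤ dcost μ D + η := by gcongr

end Vale.Agent.P189.M
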