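import Vale.Agent.P189.H741.L1

set_option autoImplicit false
set_option linter.unusedSectionVars false

open MeasureTheory
open scoped ENNReal Pointwise

namespace Vale.Agent.P189.M

/-- The edges inside `E` with label in `S`. -/
def rset {Γ Y : Type} [Group Γ] [MulAction Γ Y] (S : Set Γ) (E : Set Y) (h : Γ) : Set Y :=
  {y | h ∈ S ∧ y ∈ E ∧ h • y ∈ E}

section Fold

variable {Γ Y : Type} [Group Γ] [MulAction Γ Y] [Countable Γ] [MeasurableSpace Y]
  [MeasurableConstSMul Γ Y]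

theorem measurableSet_rset (S : Set Γ) {E : Set Y} (hE : MeasurableSet E) (g : Γ) :
    MeasurableSet (rset S E g) :=
  (MeasurableSet.const (g ∈ S)).inter (hE.inter (hE.preimage (measurable_const_smul g)))

/-- The two-sided folding theorem. -/
theorem folding2 [StandardBorelSpace Y] (ν : Measure Y) [IsFiniteMeasure ν]
    (hfree : ∀ (g : Γ) (y : Y), g • y = y → g = 1) (A B : Subgroup Γ)
    (hnf : NormalForm A B) (SA SB : Set Γ) (hSA : ∀ g ∈ SA, g ∈ A) (hSB : ∀ g ∈ SB, g ∈ B)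
    (hCA : ∀ c ∈ A ⊓ B, c ∈ SA) (hCB : ∀ c ∈ A ⊓ B, c ∈ SB) {E : Set Y} (hE : MeasurableSet E)
    (hground : ∀ y : Y, ∃ c ∈ A ⊓ B, c • y ∈ E) {K L : Γ → Set Y}
    (mK : ∀ g, MeasurableSet (K g)) (mL : ∀ g, MeasurableSet (L g))
    (hKA : ∀ g, (K g).Nonempty → g ∈ A) (hLB : ∀ g, (L g).Nonempty → g ∈ B)
    (hgen : ∀ (y : Y), ∀ g ∈ A ⊔ B,
      Conn (fun h => rset (SA ∪ SB) E h ∪ K h ∪ L h) y (g • y))
    {η : ℝ≥0∞} (hη : 0 < η) :
    ∃ (K' L' : Γ → Set Y), (∀ g, MeasurableSet (K' g)) ∧ (∀ g, MeasurableSet (L' g)) ∧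
      (∀ g, (K' g).Nonempty → g ∈ A) ∧ (∀ g, (L' g).Nonempty → g ∈ B) ∧
      (∀ y : Y, ∀ a ∈ A, Conn (un (rset SA E) K') y (a • y)) ∧
      (∀ y : Y, ∀ b ∈ B, Conn (un (rset SB E) L') y (b • y)) ∧
      dcost ν K' + dcost ν L' ≤ dcost ν K + dcost ν L + ν Eᶜ + η := by
  obtain ⟨f0, hf0⟩ := exists_measurableEmbedding_real Y
  obtain ⟨K', L', mK', mL', hKK', hLL', hKn, hLn, hcap, hcost⟩ := folding_aux ν hfree
    (f := fun y => Real.arctan (f0 y)) (Real.measurable_arctan.comp hf0.measurable)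
    (Real.arctan_injective.comp hf0.injective) (b := -(Real.pi / 2))
    (fun y => (Real.neg_pi_div_two_lt_arctan _).le) hE hground
    (measurableSet_rset SA hE) (fun g y hy => ⟨hCA g hy.1, hy.2⟩) (measurableSet_rset SB hE)
    (fun g y hy => ⟨hCB g hy.1, hy.2⟩) mK mL hη
  have hKA' : ∀ g, (K' g).Nonempty → g ∈ A := by
    intro g hg
    rcases hKn g hg with h | h
    · exact hKA g h
    · exact (Subgroup.mem_inf.1 h).1
  have hLB' : ∀ g, (L' g).Nonempty → g ∈ B := by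
    intro g hg
    rcases hLn g hg with h | h
    · exact hLB g h
    · exact (Subgroup.mem_inf.1 h).2
  let k : Setoid Y := ⟨Conn (un (rset SA E) K'), Conn.refl _, fun h => h.symm,
    fun h h' => h.trans h'⟩
  let l : Setoid Y := ⟨Conn (un (rset SB E) L'), Conn.refl _, fun h => h.symm,
    fun h h' => h.trans h'⟩
  have hk : ∀ w w' : Y, k w w' → ∃ a ∈ A, id w' = a • id w := by
    intro w w' h
    refine conn_label ?_ (show Conn (un (rset SA E) K') w w' from h)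
    rintro g ⟨y, hy | hy⟩
    · exact hSA g hy.1
    · exact hKA' g ⟨y, hy⟩
  have hl : ∀ w w' : Y, l w w' → ∃ a ∈ B, id w' = a • id w := by
    intro w w' h
    refine conn_label ?_ (show Conn (un (rset SB E) L') w w' from h)
    rintro g ⟨y, hy | hy⟩
    · exact hSB g hy.1
    · exact hLB' g ⟨y, hy⟩
  have hkl : ∀ w w' : Y, (∃ c, c ∈ A ∧ c ∈ B ∧ id w' = c • id w) → (k w w' ↔ l w w') := by
    rintro w w' ⟨c, hcA, hcB, hc⟩
    exact hcap w w' ⟨c, Subgroup.mem_inf.2 ⟨hcA, hcB⟩, hc.symm⟩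
  have hsup : ∀ (y : Y), ∀ g ∈ A ⊔ B, (k ⊔ l) y (g • y) := by
    intro y g hg
    have key : ∀ z w : Y, Conn (fun h => rset (SA ∪ SB) E h ∪ K h ∪ L h) z w →
        (k ⊔ l) z w := by
      intro z w h
      induction h with
      | rel a b h =>
        obtain ⟨g, hg, rfl⟩ := h
        rcases hg with (hg | hg) | hg
        · rcases hg.1 with h1 | h1
          · exact (le_sup_left : k ≤ k ⊔ l)
              (Conn.of_mem (D := un (rset SA E) K') (Or.inl ⟨h1, hg.2⟩))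
          · exact (le_sup_right : l ≤ k ⊔ l)
              (Conn.of_mem (D := un (rset SB E) L') (Or.inl ⟨h1, hg.2⟩))
        · exact (le_sup_left : k ≤ k ⊔ l)
            (Conn.of_mem (D := un (rset SA E) K') (Or.inr (hKK' g hg)))
        · exact (le_sup_right : l ≤ k ⊔ l)
            (Conn.of_mem (D := un (rset SB E) L') (Or.inr (hLL' g hg)))
      | refl a => exact (k ⊔ l).refl' a
      | symm a b _ ih => exact (k ⊔ l).symm' ih
      | trans a b c _ _ ih1 ih2 => exact (k ⊔ l).trans' ih1 ih2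
    exact key _ _ (hgen y g hg)
  refine ⟨K', L', mK', mL', hKA', hLB', ?_, ?_, hcost⟩
  · intro y a ha
    exact nf_lemma hfree A B hnf id k l hk hl hkl
      (hsup y a (Subgroup.mem_sup_left ha)) ⟨a, ha, rfl⟩
  · intro y b hb
    exact nf_lemma' hfree A B hnf id k l hk hl hkl
      (hsup y b (Subgroup.mem_sup_right hb)) ⟨b, hb, rfl⟩

/-- The abstract two-sided amalgam lemma. -/
theorem amalgam_abs2 [StandardBorelSpace Y] (ν : Measure Y) [IsFiniteMeasure ν]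
    [SMulInvariantMeasure Γ Y ν]
    (hfree : ∀ (g : Γ) (y : Y), g • y = y → g = 1) (A B : Subgroup Γ)
    (hnf : NormalForm A B) (SA SB : Set Γ) (hSA : ∀ g ∈ SA, g ∈ A) (hSB : ∀ g ∈ SB, g ∈ B)
    (hCA : ∀ c ∈ A ⊓ B, c ∈ SA) (hCB : ∀ c ∈ A ⊓ B, c ∈ SB) {E : Set Y} (hE : MeasurableSet E)
    (hground : ∀ y : Y, ∃ c ∈ A ⊓ B, c • y ∈ E) {K L : Γ → Set Y}
    (mK : ∀ g, MeasurableSet (K g)) (mL : ∀ g, MeasurableSet (L g))
    (hKA : ∀ g, (K g).Nonempty → g ∈ A) (hLB : ∀ g, (L g).Nonempty → g ∈ B)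
    (hgen : ∀ (y : Y), ∀ g ∈ A ⊔ B,
      Conn (fun h => rset (SA ∪ SB) E h ∪ K h ∪ L h) y (g • y))
    {η : ℝ≥0∞} (hη : 0 < η) :
    ∃ DA DB : Γ → Set Y, (∀ g, MeasurableSet (DA g)) ∧ (∀ g, MeasurableSet (DB g)) ∧
      (∀ g, (DA g).Nonempty → g ∈ A) ∧ (∀ g, (DB g).Nonempty → g ∈ B) ∧
      (∀ x ∈ E, ∀ a ∈ A, a • x ∈ E → Conn (un (rset SA E) DA) x (a • x)) ∧
      (∀ x ∈ E, ∀ b ∈ B, b • x ∈ E → Conn (un (rset SB E) DB) x (b • x)) ∧
      dcost ν DA + dcost ν DB + ν Eᶜ ≤ dcost ν K + dcost ν L + η := by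
  obtain ⟨K', L', mK', mL', hKA', hLB', hK, hL, hcost⟩ :=
    folding2 ν hfree A B hnf SA SB hSA hSB hCA hCB hE hground mK mL hKA hLB hgen hη
  have hend : ∀ (H : Set Γ) (g : Γ) (y : Y), y ∈ rset H E g → y ∈ E ∧ g • y ∈ E :=
    fun H g y hy => hy.2
  obtain ⟨D1, m1, he1, hl1, hc1, hcost1⟩ := relCompress ν (measurableSet_rset SB hE) mL' hE
    (hend SB) (fun y => by
      obtain ⟨c, hc, hcE⟩ := hground y
      exact ⟨c • y, hcE, hL y c (Subgroup.mem_inf.1 hc).2⟩)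
  obtain ⟨D2, m2, he2, hl2, hc2, hcost2⟩ := relCompress ν (measurableSet_rset SA hE) mK' hE
    (hend SA) (fun y => by
      obtain ⟨c, hc, hcE⟩ := hground y
      exact ⟨c • y, hcE, hK y c (Subgroup.mem_inf.1 hc).1⟩)
  refine ⟨D2, D1, m2, m1, hl2 A ?_ hKA', hl1 B ?_ hLB', ?_, ?_, ?_⟩
  · rintro g ⟨y, hy⟩
    exact hSA g hy.1
  · rintro g ⟨y, hy⟩
    exact hSB g hy.1
  · intro x hx a ha hax
    exact hc2 x hx _ hax (hK x a ha)
  · intro x hx a ha hax
    exact hc1 x hx _ hax (hL x a ha)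
  · have h1 : dcost ν D2 + dcost ν D1 + ν Eᶜ + ν Eᶜ ≤
        dcost ν K + dcost ν L + η + ν Eᶜ := by
      calc dcost ν D2 + dcost ν D1 + ν Eᶜ + ν Eᶜ
          = (dcost ν D2 + ν Eᶜ) + (dcost ν D1 + ν Eᶜ) := by ring
        _ ≤ dcost ν K' + dcost ν L' := add_le_add hcost2 hcost1
        _ ≤ dcost ν K + dcost ν L + ν Eᶜ + η := hcost
        _ = dcost ν K + dcost ν L + η + ν Eᶜ := by ring
    exact (ENNReal.add_le_add_iff_right (measure_ne_top _ _)).1 h1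

end Fold

/-- Every element of `A ⊔ B` is joined to `1` by a finite path with steps in `A ∪ B`. -/
theorem exists_path2 {G : Type} [Group G] (A B : Subgroup G) (g : G) (hg : g ∈ A ⊔ B) :
    ∃ (n : ℕ) (P : ℕ → G), P 0 = 1 ∧ (∀ i, n ≤ i → P i = g) ∧
      ∀ i, P (i + 1) * (P i)⁻¹ ∈ A ∨ P (i + 1) * (P i)⁻¹ ∈ B := by
  rw [Subgroup.sup_eq_closure] at hg
  have step : ∀ (s : G), (s ∈ A ∨ s ∈ B) → ∀ y : G,
      (∃ (n : ℕ) (P : ℕ → G), P 0 = 1 ∧ (∀ i, n ≤ i → P i = y) ∧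
        ∀ i, P (i + 1) * (P i)⁻¹ ∈ A ∨ P (i + 1) * (P i)⁻¹ ∈ B) →
      ∃ (n : ℕ) (P : ℕ → G), P 0 = 1 ∧ (∀ i, n ≤ i → P i = s * y) ∧
        ∀ i, P (i + 1) * (P i)⁻¹ ∈ A ∨ P (i + 1) * (P i)⁻¹ ∈ B := by
    rintro s hs y ⟨n, P, h0, h1, h2⟩
    refine ⟨n + 1, fun i => if i ≤ n then P i else s * y, by simp [h0], ?_, ?_⟩
    · intro i hi
      show (if i ≤ n then P i else s * y) = s * y
      rw [if_neg (by omega)]
    · intro i
      rcases lt_trichotomy i n with h | h | h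
      · simp only [if_pos h.le, if_pos (Nat.succ_le_of_lt h)]
        exact h2 i
      · subst h
        simp only [le_refl, if_true, if_neg (by omega : ¬ (i + 1 ≤ i)), h1 i le_rfl]
        rw [mul_inv_cancel_right]
        exact hs
      · simp only [if_neg (by omega : ¬ (i + 1 ≤ n)), if_neg (by omega : ¬ (i ≤ n))]
        rw [mul_inv_cancel]
        exact Or.inl A.one_mem
  induction hg using Subgroup.closure_induction_left with
  | one => exact ⟨0, fun _ => 1, rfl, fun _ _ => rfl, fun i => by simp [A.one_mem]⟩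
  | mul_left x hx y hy ih => exact step x hx y ih
  | inv_mul_cancel x hx y hy ih =>
    refine step x⁻¹ ?_ y ih
    rcases hx with hx | hx
    · exact Or.inl (A.inv_mem hx)
    · exact Or.inr (B.inv_mem hx)

theorem path_mem {G : Type} [Group G] (A B : Subgroup G) {P : ℕ → G} (h0 : P 0 = 1)
    (hs : ∀ i, P (i + 1) * (P i)⁻¹ ∈ A ∨ P (i + 1) * (P i)⁻¹ ∈ B) (i : ℕ) : P i ∈ A ⊔ B := by
  induction i with
  | zero => rw [h0]; exact one_mem _
  | succ i ih =>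
    have h1 : P (i + 1) = (P (i + 1) * (P i)⁻¹) * P i := by rw [inv_mul_cancel_right]
    rw [h1]
    refine mul_mem ?_ ih
    rcases hs i with h | h
    · exact Subgroup.mem_sup_left h
    · exact Subgroup.mem_sup_right h

/-- The labels over `S`. -/
def ov {G : Type} (T : Type) (S : Set G) : Set (G × T) := {γ | γ.1 ∈ S}

section Connect

variable {G X T : Type} [Group G] [MulAction G X] [Group T] {N : ℕ} {F : Finset G}
  {D : G → Set X} {P : G → ℕ → G} {e : Option (F × Fin N) ≃ T} (A B : Subgroup G) (S : Set G)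

/-- The whole graph. -/
def whole2 (D : G → Set X) (P : G → ℕ → G) (e : Option (F × Fin N) ≃ T) (γ : G × T) :
    Set (Tok X T) :=
  rset (ov T S) (grd D P e) γ ∪ lks D P e (stepA A P) γ ∪
    lks D P e (fun k => ¬ stepA A P k) γ

variable {A B S}

theorem conn_ground2 {x : X} {b : G} (hb : b ∈ S) :
    Conn (whole2 A S D P e) (tok x (e none)) (tok (b • x) (e none)) := by
  have h : tok x (e none) ∈ whole2 A S D P e (b, 1) := by
    refine Or.inl (Or.inl ⟨hb, ground_mem x, ?_⟩)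
    rw [tok_smul_mk, one_mul]
    exact ground_mem _
  have h2 := Conn.of_mem h
  rwa [tok_smul_mk, one_mul] at h2

theorem conn_chain2 (hP0 : ∀ g, P g 0 = 1) (g : F) {x : X} (hx : x ∈ D g) (i : ℕ)
    (hi : i ≤ N + 1) :
    Conn (whole2 A S D P e) (tok x (e none)) (tok (P g i • x) (lvlOf e g i)) := by
  induction i with
  | zero =>
    rw [hP0, one_smul, lvlOf_zero]
    exact Conn.refl _ _
  | succ i ih =>
    refine (ih (by omega)).trans ?_
    let k : F × Fin (N + 1) := (g, ⟨i, by omega⟩)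
    have h1 : tok (P g i • x) (lvlOf e g i) ∈ lnk D P e k := by
      refine ⟨?_, rfl⟩
      show (P g i)⁻¹ • P g i • x ∈ D g
      rw [inv_smul_smul]
      exact hx
    have h2 : tok (P g i • x) (lvlOf e g i) ∈ whole2 A S D P e (lbl P e k) := by
      by_cases hk : stepA A P k
      · exact Or.inl (Or.inr (mem_lks.2 ⟨k, ⟨hk, rfl⟩, h1⟩))
      · exact Or.inr (mem_lks.2 ⟨k, ⟨hk, rfl⟩, h1⟩)
    have h3 := Conn.of_mem h2
    have h4 : lbl P e k • tok (P g i • x) (lvlOf e g i) =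
        tok (P g (i + 1) • x) (lvlOf e g (i + 1)) := by
      show tok ((P g (i + 1) * (P g i)⁻¹) • P g i • x)
        ((lvlOf e g (i + 1) * (lvlOf e g i)⁻¹) * lvlOf e g i) = _
      rw [← mul_smul, inv_mul_cancel_right, inv_mul_cancel_right]
    rwa [h4] at h3

theorem conn_arc2 (hP0 : ∀ g, P g 0 = 1) (hPN : ∀ g ∈ F, P g (N + 1) = g) (g : F) {x : X}
    (hx : x ∈ D g) :
    Conn (whole2 A S D P e) (tok x (e none)) (tok ((g : G) • x) (e none)) := by
  have h := conn_chain2 (A := A) (S := S) (e := e) hP0 g hx (N + 1) le_rfl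
  rwa [hPN g g.2, lvlOf_last] at h

theorem conn_lift2 (hP0 : ∀ g, P g 0 = 1) (hPN : ∀ g ∈ F, P g (N + 1) = g)
    (hF : ∀ g, (D g).Nonempty → g ∈ F) {x y : X}
    (h : Conn (fun h => fl X S h ∪ D h) x y) :
    Conn (whole2 A S D P e) (tok x (e none)) (tok y (e none)) := by
  induction h with
  | rel a b h =>
    obtain ⟨g, hg | hg, rfl⟩ := h
    · exact conn_ground2 hg
    · exact conn_arc2 hP0 hPN ⟨g, hF g ⟨a, hg⟩⟩ hg
  | refl a => exact Conn.refl _ _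
  | symm a b _ ih => exact ih.symm
  | trans a b c _ _ ih1 ih2 => exact ih1.trans ih2

theorem conn_to_ground2 (hP0 : ∀ g, P g 0 = 1) (hS1 : (1 : G) ∈ S)
    (hPs : ∀ g ∈ F, ∀ i, P g i ∈ A ⊔ B) (y : Tok X T) :
    ∃ c ∈ A ⊔ B, Conn (whole2 A S D P e) y (tok (c • y.1) (e none)) := by
  by_cases hy : y ∈ grd D P e
  · refine ⟨1, one_mem _, ?_⟩
    have h : y ∈ whole2 A S D P e (1, e none * y.2⁻¹) := by
      refine Or.inl (Or.inl ⟨hS1, hy, ?_⟩)
      show tok ((1 : G) • y.1) (e none * y.2⁻¹ * y.2) ∈ grd D P e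
      rw [inv_mul_cancel_right]
      exact ground_mem _
    have h2 := Conn.of_mem h
    have h3 : ((1, e none * y.2⁻¹) : G × T) • y = tok ((1 : G) • y.1) (e none) := by
      show tok ((1 : G) • y.1) (e none * y.2⁻¹ * y.2) = _
      rw [inv_mul_cancel_right]
    rwa [h3] at h2
  · simp only [grd, Set.mem_ofPred_eq, not_forall, not_not] at hy
    obtain ⟨k, h1, h2⟩ := hy
    obtain ⟨g, i⟩ := k
    refine ⟨(P g (i + 1))⁻¹, inv_mem (hPs g g.2 _), ?_⟩
    have h3 := conn_chain2 (A := A) (S := S) (e := e) hP0 g h2 (i + 1) (by omega)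
    rw [smul_inv_smul, lvlOf_succ, ← h1] at h3
    exact h3.symm

theorem conn_whole2 (hP0 : ∀ g, P g 0 = 1) (hPN : ∀ g ∈ F, P g (N + 1) = g)
    (hS1 : (1 : G) ∈ S) (hPs : ∀ g ∈ F, ∀ i, P g i ∈ A ⊔ B)
    (hF : ∀ g, (D g).Nonempty → g ∈ F)
    (hgen : ∀ (x : X), ∀ g ∈ A ⊔ B, Conn (fun h => fl X S h ∪ D h) x (g • x))
    (y : Tok X T) (γ : G × T) (hγ : γ.1 ∈ A ⊔ B) : Conn (whole2 A S D P e) y (γ • y) := by
  obtain ⟨c, hcm, hc⟩ := conn_to_ground2 (A := A) (B := B) (S := S) (D := D) (P := P) (e := e)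
    hP0 hS1 hPs y
  obtain ⟨c', hcm', hc'⟩ := conn_to_ground2 (A := A) (B := B) (S := S) (D := D) (P := P)
    (e := e) hP0 hS1 hPs (γ • y)
  refine hc.trans (Conn.trans ?_ hc'.symm)
  have h1 : c' • (γ • y).1 = (c' * γ.1 * c⁻¹) • c • y.1 := by
    show c' • γ.1 • y.1 = _
    simp only [mul_smul, inv_smul_smul]
  rw [h1]
  exact conn_lift2 hP0 hPN hF (hgen _ _ (mul_mem (mul_mem hcm' hγ) (inv_mem hcm)))

end Connect

theorem conn_proj2 {G X T : Type} [Group G] [MulAction G X] [Group T] {S : Set G}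
    {E : Set (Tok X T)} {D' : G × T → Set (Tok X T)}
    {y z : Tok X T} (h : Conn (un (rset (ov T S) E) D') y z) :
    Conn (fun h => fl X S h ∪ proj D' h) y.1 z.1 := by
  induction h with
  | rel a b h =>
    obtain ⟨γ, hg | hg, rfl⟩ := h
    · exact Conn.of_mem (g := γ.1) (Or.inl hg.1)
    · exact Conn.of_mem (g := γ.1) (Or.inr (mem_proj hg))
  | refl a => exact Conn.refl _ _
  | symm a b _ ih => exact ih.symm
  | trans a b c _ _ ih1 ih2 => exact ih1.trans ih2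

theorem amalgam_core2 {G X T : Type} [Group G] [Countable G]
    [MeasurableSpace X] [StandardBorelSpace X] (μ : Measure X) [IsFiniteMeasure μ]
    [MulAction G X] [MeasurableConstSMul G X] [SMulInvariantMeasure G X μ]
    (hfree : ∀ (g : G) (x : X), g • x = x → g = 1)
    [Group T] [Fintype T] [MeasurableSpace T] [DiscreteMeasurableSpace T]
    (A B : Subgroup G) (hnf : NormalForm A B)
    (SA SB : Set G) (hSA : ∀ g ∈ SA, g ∈ A) (hSB : ∀ g ∈ SB, g ∈ B)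
    (hCA : ∀ c ∈ A ⊓ B, c ∈ SA) (hCB : ∀ c ∈ A ⊓ B, c ∈ SB)
    (D : G → Set X) (hD : ∀ g, MeasurableSet (D g))
    (hgen : ∀ (x : X), ∀ g ∈ A ⊔ B, Conn (fun h => fl X (SA ∪ SB) h ∪ D h) x (g • x))
    (N : ℕ) (F : Finset G) (hF : ∀ g, (D g).Nonempty → g ∈ F) (P : G → ℕ → G)
    (hP0 : ∀ g, P g 0 = 1) (hPN : ∀ g ∈ F, P g (N + 1) = g)
    (hPs : ∀ g i, P g (i + 1) * (P g i)⁻¹ ∈ A ∨ P g (i + 1) * (P g i)⁻¹ ∈ B)
    (e : Option (F × Fin N) ≃ T)
    (η : ℝ≥0∞) (hη : 0 < η) :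
    ∃ DA DB : G → Set X, (∀ g, MeasurableSet (DA g)) ∧ (∀ g, MeasurableSet (DB g)) ∧
      (∀ g, (DA g).Nonempty → g ∈ A) ∧ (∀ g, (DB g).Nonempty → g ∈ B) ∧
      (∀ (x : X), ∀ a ∈ A, Conn (fun h => fl X SA h ∪ DA h) x (a • x)) ∧
      (∀ (x : X), ∀ b ∈ B, Conn (fun h => fl X SB h ∪ DB h) x (b • x)) ∧
      dcost μ DA + dcost μ DB ≤ dcost μ D + η := by
  classical
  have hcost : dcost μ D = ∑ g ∈ F, μ (D g) := by
    unfold dcost
    refine tsum_eq_sum fun g hg => ?_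
    have : D g = ∅ := by
      rw [← Set.not_nonempty_iff_eq_empty]
      exact fun h => hg (hF g h)
    rw [this, measure_empty]
  have hcfin : dcost μ D ≠ ⊤ := by
    rw [hcost]
    exact (ENNReal.sum_lt_top.2 fun g _ => measure_lt_top _ _).ne
  have hKL := dcost_lks_le (D := D) (P := P) (e := e) μ (stepA A P) (fun k => ¬ stepA A P k)
    (fun k hk h => h hk)
  rw [← hcost] at hKL
  have hprod : (A.prod (⊤ : Subgroup T)) ⊓ (B.prod ⊤) = (A ⊓ B).prod ⊤ := by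
    ext γ
    simp only [Subgroup.mem_inf, Subgroup.mem_prod, Subgroup.mem_top, and_true]
  have hsup : ∀ γ ∈ (A.prod (⊤ : Subgroup T)) ⊔ (B.prod ⊤), γ.1 ∈ A ⊔ B := by
    intro γ hγ
    have h1 : (A.prod (⊤ : Subgroup T)) ⊔ (B.prod ⊤) ≤ (A ⊔ B).prod ⊤ :=
      sup_le (fun γ h => ⟨Subgroup.mem_sup_left h.1, trivial⟩)
        (fun γ h => ⟨Subgroup.mem_sup_right h.1, trivial⟩)
    exact (h1 hγ).1
  have hov : ov T SA ∪ ov T SB = ov T (SA ∪ SB) := rfl
  obtain ⟨DA, DB, mA, mB, hlA, hlB, hcA, hcB, h5⟩ := amalgam_abs2 (Γ := G × T) (Y := Tok X T)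
    (tokMeasure μ)
    (by
      intro γ y h
      have h1 : γ.1 • y.1 = y.1 := congrArg Prod.fst h
      have h2 : γ.2 * y.2 = y.2 := congrArg Prod.snd h
      exact Prod.ext (hfree _ _ h1) (by simpa using h2))
    (A.prod ⊤) (B.prod ⊤) hnf.prodTop (ov T SA) (ov T SB) (fun γ h => ⟨hSA _ h, trivial⟩)
    (fun γ h => ⟨hSB _ h, trivial⟩)
    (fun γ h => by rw [hprod] at h; exact hCA _ h.1)
    (fun γ h => by rw [hprod] at h; exact hCB _ h.1)
    (E := grd D P e) (measurable_grd hD)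
    (by
      intro y
      refine ⟨(1, e none * y.2⁻¹), ⟨⟨A.one_mem, trivial⟩, ⟨B.one_mem, trivial⟩⟩, ?_⟩
      show tok ((1 : G) • y.1) (e none * y.2⁻¹ * y.2) ∈ grd D P e
      rw [inv_mul_cancel_right]
      exact ground_mem _)
    (K := lks D P e (stepA A P)) (L := lks D P e (fun k => ¬ stepA A P k))
    (measurable_lks hD _) (measurable_lks hD _)
    (by
      rintro γ ⟨y, hy⟩
      obtain ⟨k, ⟨hk, rfl⟩, -⟩ := mem_lks.1 hy
      exact ⟨hk, trivial⟩)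
    (by
      rintro γ ⟨y, hy⟩
      obtain ⟨k, ⟨hk, rfl⟩, -⟩ := mem_lks.1 hy
      exact ⟨(hPs k.1 k.2).resolve_left hk, trivial⟩)
    (fun y γ hγ => conn_whole2 (A := A) (B := B) (S := SA ∪ SB) hP0 hPN
      (Or.inl (hCA 1 (one_mem _))) (fun g _ i => path_mem A B (hP0 g) (hPs g) i) hF hgen y γ
      (hsup γ hγ)) hη
  refine ⟨proj DA, proj DB, measurable_proj mA, measurable_proj mB, ?_, ?_, ?_, ?_, ?_⟩
  · rintro g ⟨x, hx⟩
    obtain ⟨s, t, hx⟩ := Set.mem_iUnion₂.1 hx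
    exact (hlA (g, s) ⟨_, hx⟩).1
  · rintro g ⟨x, hx⟩
    obtain ⟨s, t, hx⟩ := Set.mem_iUnion₂.1 hx
    exact (hlB (g, s) ⟨_, hx⟩).1
  · intro x a ha
    have h6 := hcA (tok x (e none)) (ground_mem x) (a, 1) ⟨ha, trivial⟩ (by
      rw [tok_smul_mk, one_mul]
      exact ground_mem _)
    exact conn_proj2 h6
  · intro x a ha
    have h6 := hcB (tok x (e none)) (ground_mem x) (a, 1) ⟨ha, trivial⟩ (by
      rw [tok_smul_mk, one_mul]
      exact ground_mem _)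
    exact conn_proj2 h6
  · refine (add_le_add (dcost_proj μ mA) (dcost_proj μ mB)).trans ?_
    rw [measure_compl_grd μ hD, ← hcost] at h5
    have h6 : dcost (tokMeasure μ) DA + dcost (tokMeasure μ) DB + (N : ℝ≥0∞) * dcost μ D ≤
        (dcost μ D + η) + (N : ℝ≥0∞) * dcost μ D := by
      refine h5.trans ((add_le_add hKL le_rfl).trans (le_of_eq ?_))
      ring
    exact (ENNReal.add_le_add_iff_right
      (ENNReal.mul_ne_top (ENNReal.natCast_ne_top _) hcfin)).1 h6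

/-- The two-sided amalgam lemma. -/
theorem amalgam2 {G X : Type} [Group G] [Countable G]
    [MeasurableSpace X] [StandardBorelSpace X] (μ : Measure X) [IsProbabilityMeasure μ]
    [MulAction G X] [MeasurableConstSMul G X] [SMulInvariantMeasure G X μ]
    (hfree : ∀ (g : G) (x : X), g • x = x → g = 1)
    (A B : Subgroup G) (hnf : NormalForm A B)
    (SA SB : Set G) (hSA : ∀ g ∈ SA, g ∈ A) (hSB : ∀ g ∈ SB, g ∈ B)
    (hCA : ∀ c ∈ A ⊓ B, c ∈ SA) (hCB : ∀ c ∈ A ⊓ B, c ∈ SB)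
    (D : G → Set X) (hD : ∀ g, MeasurableSet (D g)) (hfin : {g | (D g).Nonempty}.Finite)
    (hDl : ∀ g, (D g).Nonempty → g ∈ A ⊔ B)
    (hgen : ∀ (x : X), ∀ g ∈ A ⊔ B, Conn (fun h => fl X (SA ∪ SB) h ∪ D h) x (g • x))
    (η : ℝ≥0∞) (hη : 0 < η) :
    ∃ DA DB : G → Set X, (∀ g, MeasurableSet (DA g)) ∧ (∀ g, MeasurableSet (DB g)) ∧
      (∀ g, (DA g).Nonempty → g ∈ A) ∧ (∀ g, (DB g).Nonempty → g ∈ B) ∧
      (∀ (x : X), ∀ a ∈ A, Conn (fun h => fl X SA h ∪ DA h) x (a • x)) ∧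
      (∀ (x : X), ∀ b ∈ B, Conn (fun h => fl X SB h ∪ DB h) x (b • x)) ∧
      dcost μ DA + dcost μ DB ≤ dcost μ D + η := by
  classical
  have hpath : ∀ g : G, ∃ (n : ℕ) (P : ℕ → G), P 0 = 1 ∧
      (g ∈ A ⊔ B → ∀ i, n ≤ i → P i = g) ∧
      ∀ i, P (i + 1) * (P i)⁻¹ ∈ A ∨ P (i + 1) * (P i)⁻¹ ∈ B := by
    intro g
    by_cases hg : g ∈ A ⊔ B
    · obtain ⟨n, P, h0, h1, h2⟩ := exists_path2 A B g hg
      exact ⟨n, P, h0, fun _ => h1, h2⟩
    · exact ⟨0, fun _ => 1, rfl, fun h => absurd h hg, fun i => by simp [A.one_mem]⟩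
  choose n P hP0 hPn hPs using hpath
  let F : Finset G := hfin.toFinset
  let N : ℕ := F.sup n
  have hPN : ∀ g ∈ F, P g (N + 1) = g := fun g hg =>
    hPn g (hDl g (hfin.mem_toFinset.1 hg)) _
      ((Finset.le_sup (f := n) hg).trans (Nat.le_succ _))
  obtain ⟨T, _, _, ⟨e⟩⟩ := exists_group_equiv (Option (F × Fin N))
  let _ : MeasurableSpace T := ⊤
  have : DiscreteMeasurableSpace T := ⟨fun _ => trivial⟩
  exact amalgam_core2 μ hfree A B hnf SA SB hSA hSB hCA hCB D hD hgen N F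
    (fun g hg => hfin.mem_toFinset.2 hg) P hP0 hPN hPs e η hη

end Vale.Agent.P189.M
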