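import Vale.Agent.P189.H741.L2

set_option autoImplicit false

open MeasureTheory
open scoped ENNReal Pointwise symmDiff

namespace Vale.Agent.P189.M

open RelCostAux

/-- The commuting subgroup of the copy `i`. -/
def Bs {G ι : Type} [Group G] (p q : ι → G) (t : G) (i : ι) : Subgroup G :=
  Subgroup.closure {p i, q i * p i * (q i)⁻¹, t}

/-- The labels of the base relation. -/
def base {G ι : Type} [Group G] (p q : ι → G) (t : G) (s : Set ι) : Set G :=
  {g | g ∈ Subgroup.zpowers t ∨ ∃ i ∈ s, g ∈ Bs p q t i}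

section Subs

variable {G ι : Type} [Group G] {p q : ι → G} {t : G}

theorem p_mem_sub {J : Set ι} {i : ι} (hi : i ∈ J) : p i ∈ sub p q t J :=
  Subgroup.subset_closure (Or.inl (Or.inl ⟨i, hi, rfl⟩))

theorem q_mem_sub {J : Set ι} {i : ι} (hi : i ∈ J) : q i ∈ sub p q t J :=
  Subgroup.subset_closure (Or.inl (Or.inr ⟨i, hi, rfl⟩))

theorem t_mem_sub {J : Set ι} : t ∈ sub p q t J :=
  Subgroup.subset_closure (Or.inr rfl)

theorem p_mem_Bs (i : ι) : p i ∈ Bs p q t i := Subgroup.subset_closure (by simp)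

theorem t_mem_Bs (i : ι) : t ∈ Bs p q t i := Subgroup.subset_closure (by simp)

theorem Bs_le_sub {J : Set ι} {i : ι} (hi : i ∈ J) : Bs p q t i ≤ sub p q t J := by
  unfold Bs
  rw [Subgroup.closure_le]
  rintro g (rfl | rfl | rfl)
  · exact p_mem_sub hi
  · exact mul_mem (mul_mem (q_mem_sub hi) (p_mem_sub hi)) (inv_mem (q_mem_sub hi))
  · exact t_mem_sub

theorem sub_le {J : Set ι} {H : Subgroup G} (hp : ∀ i ∈ J, p i ∈ H) (hq : ∀ i ∈ J, q i ∈ H)
    (ht : t ∈ H) : sub p q t J ≤ H := by
  unfold sub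
  rw [Subgroup.closure_le]
  rintro g ((⟨i, hi, rfl⟩ | ⟨i, hi, rfl⟩) | rfl)
  · exact hp i hi
  · exact hq i hi
  · exact ht

theorem sub_mono {J J' : Set ι} (h : J ⊆ J') : sub p q t J ≤ sub p q t J' :=
  sub_le (fun _ hi => p_mem_sub (h hi)) (fun _ hi => q_mem_sub (h hi)) t_mem_sub

theorem sub_union (J J' : Set ι) : sub p q t J ⊔ sub p q t J' = sub p q t (J ∪ J') := by
  refine le_antisymm (sup_le (sub_mono Set.subset_union_left) (sub_mono Set.subset_union_right))
    (sub_le ?_ ?_ ?_)
  · rintro i (hi | hi)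
    · exact Subgroup.mem_sup_left (p_mem_sub hi)
    · exact Subgroup.mem_sup_right (p_mem_sub hi)
  · rintro i (hi | hi)
    · exact Subgroup.mem_sup_left (q_mem_sub hi)
    · exact Subgroup.mem_sup_right (q_mem_sub hi)
  · exact Subgroup.mem_sup_left t_mem_sub

theorem base_sub {J : Set ι} {g : G} (hg : g ∈ base p q t J) : g ∈ sub p q t J := by
  rcases hg with hg | ⟨i, hi, hg⟩
  · exact (Subgroup.zpowers_le.2 t_mem_sub) hg
  · exact Bs_le_sub hi hg

end Subs

/-- Connectivity of the generators gives connectivity of the subgroup. -/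
theorem conn_sub {G X ι : Type} [Group G] [MulAction G X] {p q : ι → G} {t : G} {J : Set ι}
    {D : G → Set X} (hp : ∀ i ∈ J, ∀ x, Conn D x (p i • x)) (hq : ∀ i ∈ J, ∀ x, Conn D x (q i • x))
    (ht : ∀ x, Conn D x (t • x)) {g : G} (hg : g ∈ sub p q t J) (x : X) : Conn D x (g • x) := by
  refine conn_closure D _ ?_ hg x
  rintro s ((⟨i, hi, rfl⟩ | ⟨i, hi, rfl⟩) | rfl) y
  · exact hp i hi y
  · exact hq i hi y
  · exact ht y

section Lower

variable {G X ι : Type} [Group G] [Countable G] [MeasurableSpace X]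
    [StandardBorelSpace X] (μ : Measure X) [IsProbabilityMeasure μ] [MulAction G X]
    [MeasurableConstSMul G X] [SMulInvariantMeasure G X μ]
    (hfree : ∀ (g : G) (x : X), g • x = x → g = 1)
    {p q : ι → G} {t : G} (hG : MultiData G ι p q t)
    (hgap : ∀ i, ∀ W : Set X, MeasurableSet W → (∀ x, p i • x ∈ W ↔ x ∈ W) →
      (1 / 3 : ℝ) * (μ.real W * μ.real Wᶜ) ≤ μ.real (symmDiff W ((fun x => q i • x) ⁻¹' W)))
    (hsmall : ∃ (m : ℕ) (A : Fin m → Set X), (∀ i, MeasurableSet (A i)) ∧
      (⋃ i, A i = Set.univ) ∧ ∀ i, μ.real (A i) ≤ 1 / 9)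

include hfree hG hgap hsmall

/-- The lower bound for one copy. -/
theorem single_copy (i : ι) (D : G → Set X) (hD : ∀ g, MeasurableSet (D g))
    (hDl : ∀ g, (D g).Nonempty → g ∈ sub p q t {i})
    (hgen : ∀ (x : X), ∀ g ∈ sub p q t {i},
      Conn (fun h => fl X (Bs p q t i : Set G) h ∪ D h) x (g • x)) :
    ENNReal.ofReal (1 / 81) ≤ dcost μ D := by
  classical
  set A := Subgroup.closure {p i, q i} with hAdef
  have hpA : p i ∈ A := Subgroup.subset_closure (by simp)
  have hqA : q i ∈ A := Subgroup.subset_closure (by simp)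
  have hqS : q i ∈ sub p q t {i} := q_mem_sub rfl
  have hAB : A ⊔ Bs p q t i = sub p q t {i} := by
    refine le_antisymm (sup_le ?_ (Bs_le_sub rfl)) (sub_le ?_ ?_ ?_)
    · rw [hAdef, Subgroup.closure_le]
      rintro g (rfl | rfl)
      · exact p_mem_sub rfl
      · exact hqS
    · rintro j rfl
      exact Subgroup.mem_sup_left hpA
    · rintro j rfl
      exact Subgroup.mem_sup_left hqA
    · exact Subgroup.mem_sup_right (t_mem_Bs i)
  refine ENNReal.le_of_forall_pos_le_add fun ε hε _ => ?_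
  have hη : (0 : ℝ≥0∞) < (ε : ℝ≥0∞) / 3 := ENNReal.div_pos (by simpa using hε.ne') (by simp)
  set η := (ε : ℝ≥0∞) / 3 with hηdef
  obtain ⟨D1, hD1, hD1f, hD1l, hD1c, hD1cost⟩ := truncate_set μ hfree (Bs p q t i : Set G)
    {q i} D hD (fun g hg x => by
      rw [Finset.mem_singleton.1 hg]
      exact hgen x _ hqS) η hη
  have hD1l' : ∀ g, (D1 g).Nonempty → g ∈ sub p q t {i} := by
    intro g hg
    rcases hD1l g hg with h | h
    · exact hDl g h
    · rw [Finset.mem_singleton.1 h]; exact hqS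
  have hD1gen : ∀ (x : X), ∀ g ∈ sub p q t {i},
      Conn (fun h => fl X (Bs p q t i : Set G) h ∪ D1 h) x (g • x) := by
    intro x g hg
    refine conn_sub (J := {i}) ?_ ?_ ?_ hg x
    · rintro j rfl y
      exact Conn.of_mem (D := fun h => fl X (Bs p q t j : Set G) h ∪ D1 h) (Or.inl (p_mem_Bs j))
    · rintro j rfl y
      exact hD1c _ (Finset.mem_singleton_self _) y
    · intro y
      exact Conn.of_mem (D := fun h => fl X (Bs p q t i : Set G) h ∪ D1 h) (Or.inl (t_mem_Bs i))
  obtain ⟨D2, DB, hD2, -, hD2l, -, hD2c, -, hD2cost⟩ := amalgam2 μ hfree A (Bs p q t i)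
    (hG.nf i) ((A ⊓ Bs p q t i : Subgroup G) : Set G) (Bs p q t i : Set G)
    (fun g hg => (Subgroup.mem_inf.1 hg).1) (fun g hg => hg) (fun g hg => hg)
    (fun g hg => (Subgroup.mem_inf.1 hg).2) D1 hD1 hD1f (by rw [hAB]; exact hD1l')
    (by
      intro x g hg
      rw [hAB] at hg
      refine Conn.mono (fun h y hy => ?_) (hD1gen x g hg)
      rcases hy with hy | hy
      · exact Or.inl (Or.inr hy)
      · exact Or.inr hy) η hη
  have hinf : A ⊓ Bs p q t i = Subgroup.closure {p i, q i * p i * (q i)⁻¹} := hG.inf i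
  rw [hinf] at hD2c
  obtain ⟨D3, hD3, hD3f, hD3l, hD3c, hD3cost⟩ := truncate_set μ hfree
    (Subgroup.closure {p i, q i * p i * (q i)⁻¹} : Set G) {q i} D2 hD2
    (fun g hg x => by
      rw [Finset.mem_singleton.1 hg]
      exact hD2c x _ hqA) η hη
  have hbar := barrier μ hfree (p i) (q i) (hG.p3 i) (hG.q3 i) (hG.p1 i) (hG.q1 i) (hG.nf0 i)
    (hG.inf0 i) (1 / 3) (hgap i) hsmall D3 hD3 hD3f (by
      intro g hg
      rcases hD3l g hg with h | h
      · exact hD2l g h
      · rw [Finset.mem_singleton.1 h]; exact hqA) (fun x => hD3c _ (Finset.mem_singleton_self _) x)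
  have h81 : (1 / 81 : ℝ) ≤ (dcost μ D3).toReal := by linarith
  have h81' : ENNReal.ofReal (1 / 81) ≤ dcost μ D3 := ENNReal.ofReal_le_of_le_toReal h81
  calc ENNReal.ofReal (1 / 81) ≤ dcost μ D3 := h81'
    _ ≤ ((dcost μ D + η) + η) + η := by
      refine hD3cost.trans ?_
      gcongr
      refine (le_add_right le_rfl).trans (hD2cost.trans ?_)
      gcongr
    _ = dcost μ D + (η + η + η) := by ring
    _ = dcost μ D + ε := by rw [hηdef, ENNReal.add_thirds]

/-- The lower bound for finitely many copies. -/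
theorem multi_copy [DecidableEq ι] (s : Finset ι) : ∀ (D : G → Set X),
    (∀ g, MeasurableSet (D g)) → (∀ g, (D g).Nonempty → g ∈ sub p q t (s : Set ι)) →
    (∀ (x : X), ∀ g ∈ sub p q t (s : Set ι),
      Conn (fun h => fl X (base p q t (s : Set ι)) h ∪ D h) x (g • x)) →
    (s.card : ℝ≥0∞) * ENNReal.ofReal (1 / 81) ≤ dcost μ D := by
  classical
  induction s using Finset.induction_on with
  | empty => intro D _ _ _; simp
  | insert i s his ih =>
    intro D hD hDl hgen
    set S : Set ι := ((insert i s : Finset ι) : Set ι) with hS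
    have hSu : S = (s : Set ι) ∪ {i} := by
      rw [hS, Finset.coe_insert, Set.union_comm]
      rfl
    have hdisj : Disjoint (s : Set ι) ({i} : Set ι) := by
      rw [Set.disjoint_singleton_right]
      exact fun h => his (Finset.mem_coe.1 h)
    have hsup : sub p q t (s : Set ι) ⊔ sub p q t {i} = sub p q t S := by
      rw [sub_union, hSu]
    refine ENNReal.le_of_forall_pos_le_add fun ε hε _ => ?_
    have hη : (0 : ℝ≥0∞) < (ε : ℝ≥0∞) / 2 := ENNReal.half_pos (by simpa using hε.ne')
    set η := (ε : ℝ≥0∞) / 2 with hηdef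
    obtain ⟨D1, hD1, hD1f, hD1l, hD1c, hD1cost⟩ := truncate_set μ hfree (base p q t S)
      ((insert i s).image q) D hD (fun g hg x => by
        obtain ⟨j, hj, rfl⟩ := Finset.mem_image.1 hg
        exact hgen x _ (q_mem_sub (Finset.mem_coe.2 hj))) η hη
    have hD1l' : ∀ g, (D1 g).Nonempty → g ∈ sub p q t S := by
      intro g hg
      rcases hD1l g hg with h | h
      · exact hDl g h
      · obtain ⟨j, hj, rfl⟩ := Finset.mem_image.1 h
        exact q_mem_sub (Finset.mem_coe.2 hj)
    have hD1gen : ∀ (x : X), ∀ g ∈ sub p q t S,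
        Conn (fun h => fl X (base p q t S) h ∪ D1 h) x (g • x) := by
      intro x g hg
      refine conn_sub (J := S) ?_ ?_ ?_ hg x
      · intro j hj y
        exact Conn.of_mem (D := fun h => fl X (base p q t S) h ∪ D1 h)
          (Or.inl (Or.inr ⟨j, hj, p_mem_Bs j⟩))
      · intro j hj y
        exact hD1c _ (Finset.mem_image_of_mem q (Finset.mem_coe.1 hj)) y
      · intro y
        exact Conn.of_mem (D := fun h => fl X (base p q t S) h ∪ D1 h)
          (Or.inl (Or.inl (Subgroup.mem_zpowers t)))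
    have hinf := hG.split_inf (s : Set ι) {i} hdisj
    have hBsub : ∀ g ∈ Bs p q t i, g ∈ sub p q t ({i} : Set ι) :=
      fun g hg => Bs_le_sub (Set.mem_singleton i) hg
    have hgen' : ∀ (x : X), ∀ g ∈ sub p q t (s : Set ι) ⊔ sub p q t ({i} : Set ι),
        Conn (fun h => fl X (base p q t (s : Set ι) ∪ (Bs p q t i : Set G)) h ∪ D1 h)
          x (g • x) := by
      intro x g hg
      rw [hsup] at hg
      refine Conn.mono (fun h y hy => ?_) (hD1gen x g hg)
      rcases hy with hy | hy
      · left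
        rcases hy with hy | ⟨j, hj, hy⟩
        · exact Or.inl (Or.inl hy)
        · rw [hSu] at hj
          rcases hj with hj | hj
          · exact Or.inl (Or.inr ⟨j, hj, hy⟩)
          · have hj' : j = i := hj
            subst hj'
            exact Or.inr hy
      · exact Or.inr hy
    have hlab : ∀ g, (D1 g).Nonempty → g ∈ sub p q t (s : Set ι) ⊔ sub p q t ({i} : Set ι) := by
      rw [hsup]; exact hD1l'
    obtain ⟨DA, DB, hDA, hDB, hDAl, hDBl, hDAc, hDBc, hcost⟩ := amalgam2 μ hfree
      (sub p q t (s : Set ι)) (sub p q t {i}) (hG.split_nf _ _ hdisj)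
      (base p q t (s : Set ι)) (Bs p q t i : Set G) (fun g hg => base_sub hg)
      hBsub
      (fun g hg => by rw [hinf] at hg; exact Or.inl hg)
      (fun g hg => by
        rw [hinf] at hg
        exact (Subgroup.zpowers_le.2 (t_mem_Bs i)) hg) D1 hD1 hD1f hlab hgen' η hη
    have h1 := ih DA hDA hDAl hDAc
    have h2 := single_copy μ hfree hG hgap hsmall i DB hDB hDBl hDBc
    calc ((insert i s).card : ℝ≥0∞) * ENNReal.ofReal (1 / 81)
        = (s.card : ℝ≥0∞) * ENNReal.ofReal (1 / 81) + ENNReal.ofReal (1 / 81) := by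
          rw [Finset.card_insert_of_notMem his]
          push_cast
          ring
      _ ≤ dcost μ DA + dcost μ DB := add_le_add h1 h2
      _ ≤ (dcost μ D + η) + η := hcost.trans (by gcongr)
      _ = dcost μ D + (η + η) := by ring
      _ = dcost μ D + ε := by rw [hηdef, ENNReal.add_halves]

/-- The lower bound for everywhere free actions with gaps and everywhere generating graphs. -/
theorem lower_free_multi (s : Finset ι) (D : G → Set X) (hD : ∀ g, MeasurableSet (D g))
    (hgen : ∀ (x : X) (g : G), Conn D x (g • x)) :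
    1 + (s.card : ℝ≥0∞) * ENNReal.ofReal (1 / 81) ≤ dcost μ D := by
  classical
  have : Infinite (Subgroup.zpowers t) := by
    refine Infinite.of_injective (fun n : ℕ => (⟨t ^ n, Subgroup.npow_mem_zpowers t n⟩ :
      Subgroup.zpowers t)) ?_
    intro m n h
    have h' : t ^ m = t ^ n := congrArg Subtype.val h
    rcases le_total m n with hmn | hmn
    · have : t ^ (n - m) = 1 := by
        rw [pow_sub t hmn, ← h', mul_inv_cancel]
      have := hG.tinf _ this
      omega
    · have : t ^ (m - n) = 1 := by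
        rw [pow_sub t hmn, ← h', mul_inv_cancel]
      have := hG.tinf _ this
      omega
  have hdisj : Disjoint (s : Set ι) ((s : Set ι)ᶜ) := disjoint_compl_right
  have hsup : sub p q t (s : Set ι) ⊔ sub p q t (s : Set ι)ᶜ = ⊤ := by
    rw [sub_union, Set.union_compl_self]
    exact hG.gen
  have hinf := hG.split_inf _ _ hdisj
  refine ENNReal.le_of_forall_pos_le_add fun ε hε _ => ?_
  have hη : (0 : ℝ≥0∞) < (ε : ℝ≥0∞) / 3 := ENNReal.div_pos (by simpa using hε.ne') (by simp)
  set η := (ε : ℝ≥0∞) / 3 with hηdef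
  obtain ⟨D1, hD1, hD1c, hD1cost⟩ := relcost0 μ hfree (Subgroup.zpowers t) D hD hgen η hη
  set C : Set G := base p q t (s : Set ι) ∪ (sub p q t (s : Set ι)ᶜ : Set G) with hC
  obtain ⟨D2, hD2, hD2f, -, hD2c, hD2cost⟩ := truncate_set μ hfree C (s.image q) D1 hD1
    (fun g _ x => by
      refine Conn.mono (fun h y hy => ?_) (hD1c x g)
      rcases hy with hy | hy
      · exact Or.inl (Or.inl (Or.inl hy))
      · exact Or.inr hy) η hη
  have hD2gen : ∀ (x : X) (g : G), Conn (fun h => fl X C h ∪ D2 h) x (g • x) := by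
    intro x g
    have hg : g ∈ sub p q t Set.univ := by rw [hG.gen]; trivial
    refine conn_sub (J := Set.univ) ?_ ?_ ?_ hg x
    · intro j _ y
      refine Conn.of_mem (D := fun h => fl X C h ∪ D2 h) (Or.inl ?_)
      by_cases hj : j ∈ (s : Set ι)
      · exact Or.inl (Or.inr ⟨j, hj, p_mem_Bs j⟩)
      · exact Or.inr (p_mem_sub hj)
    · intro j _ y
      by_cases hj : j ∈ (s : Set ι)
      · exact hD2c _ (Finset.mem_image_of_mem q (Finset.mem_coe.1 hj)) y
      · exact Conn.of_mem (D := fun h => fl X C h ∪ D2 h) (Or.inl (Or.inr (q_mem_sub hj)))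
    · intro y
      exact Conn.of_mem (D := fun h => fl X C h ∪ D2 h)
        (Or.inl (Or.inl (Or.inl (Subgroup.mem_zpowers t))))
  obtain ⟨DA, DB, hDA, -, hDAl, -, hDAc, -, hcost⟩ := amalgam2 μ hfree
    (sub p q t (s : Set ι)) (sub p q t (s : Set ι)ᶜ) (hG.split_nf _ _ hdisj)
    (base p q t (s : Set ι)) (sub p q t (s : Set ι)ᶜ : Set G) (fun g hg => base_sub hg)
    (fun g hg => hg)
    (fun g hg => by rw [hinf] at hg; exact Or.inl hg)
    (fun g hg => (Subgroup.mem_inf.1 hg).2) D2 hD2 hD2f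
    (fun g _ => by rw [hsup]; trivial) (fun x g _ => hD2gen x g) η hη
  have h1 := multi_copy μ hfree hG hgap hsmall s DA hDA hDAl hDAc
  calc 1 + (s.card : ℝ≥0∞) * ENNReal.ofReal (1 / 81) ≤ 1 + dcost μ DA := by gcongr
    _ ≤ 1 + ((dcost μ D1 + η) + η) := by
      gcongr
      exact (le_add_right le_rfl).trans (hcost.trans (by gcongr))
    _ = (dcost μ D1 + 1) + η + η := by ring
    _ ≤ (dcost μ D + η) + η + η := by gcongr
    _ = dcost μ D + (η + η + η) := by ring
    _ = dcost μ D + ε := by rw [hηdef, ENNReal.add_thirds]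

end Lower

end Vale.Agent.P189.M
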