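import Vale.Agent.P189.H741.L3

set_option autoImplicit false

open MeasureTheory
open scoped ENNReal Pointwise symmDiff

namespace Vale.Agent.P189.M

/-- The lower bound for the Bernoulli action. -/
theorem lowerSt : LowerSt := by
  classical
  intro G ι _ _ p q t hG s D hD hgen
  set μ := bernMeasure G with hμ
  have hfree := bern_free G
  -- the bad null set
  let N0 : Set (Bern G) := {x | ¬ ∀ g : G, Conn D x (g • x)} ∪
    ⋃ g : G, ⋃ _ : g ≠ 1, {x | g • x = x}
  have hN0 : μ N0 = 0 := by
    refine measure_union_null hgen ?_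
    exact measure_iUnion_null fun g => measure_iUnion_null fun hg => hfree g hg
  let N : Set (Bern G) := toMeasurable μ N0
  have hN : MeasurableSet N := measurableSet_toMeasurable _ _
  have hN' : μ N = 0 := by rw [measure_toMeasurable, hN0]
  let S : SubMulAction G (Bern G) :=
    { carrier := {x | ∀ g : G, g • x ∉ N}
      smul_mem' := by
        intro h x hx g
        rw [← mul_smul]
        exact hx _ }
  have hSm : MeasurableSet (S : Set (Bern G)) := by
    have : (S : Set (Bern G)) = ⋂ g : G, (fun x => g • x) ⁻¹' Nᶜ := by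
      ext x
      rw [Set.mem_iInter]
      exact Iff.rfl
    rw [this]
    exact MeasurableSet.iInter fun g => hN.compl.preimage (measurable_const_smul g)
  have hSc : μ (S : Set (Bern G))ᶜ = 0 := by
    have : (S : Set (Bern G))ᶜ = ⋃ g : G, (fun x => g • x) ⁻¹' N := by
      ext x
      rw [Set.mem_iUnion]
      have h1 : x ∈ (S : Set (Bern G))ᶜ ↔ ¬ ∀ g : G, g • x ∉ N := Iff.rfl
      rw [h1]
      push Not
      exact Iff.rfl
    rw [this]
    refine measure_iUnion_null fun g => ?_
    rw [measure_preimage_smul]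
    exact hN'
  have hSN0 : ∀ x ∈ S, x ∉ N0 := by
    intro x hx hx0
    have h1 := hx 1
    rw [one_smul] at h1
    exact h1 (subset_toMeasurable _ _ hx0)
  have hSconn : ∀ x ∈ S, ∀ g : G, Conn D x (g • x) := by
    intro x hx
    by_contra h
    exact hSN0 x hx (Or.inl h)
  have hSfree : ∀ x ∈ S, ∀ g : G, g • x = x → g = 1 := by
    intro x hx g hg
    by_contra h
    exact hSN0 x hx (Or.inr (Set.mem_iUnion.2 ⟨g, Set.mem_iUnion.2 ⟨h, hg⟩⟩))
  -- the measure on the subtype
  have : StandardBorelSpace S := hSm.standardBorel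
  let ν : Measure S := μ.comap Subtype.val
  have hemb : MeasurableEmbedding (Subtype.val : S → Bern G) := MeasurableEmbedding.subtype_coe hSm
  have hν : ∀ T : Set S, ν T = μ (Subtype.val '' T) := fun T => hemb.comap_apply _ _
  have hνp : ∀ T : Set (Bern G), ν (Subtype.val ⁻¹' T) = μ T := by
    intro T
    rw [hν]
    have h0 : (Subtype.val : S → Bern G) '' (Subtype.val ⁻¹' T) = (S : Set (Bern G)) ∩ T :=
      Subtype.image_preimage_coe (S : Set (Bern G)) T
    rw [h0]
    refine le_antisymm (measure_mono Set.inter_subset_right) ?_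
    calc μ T ≤ μ (((S : Set (Bern G)) ∩ T) ∪ (S : Set (Bern G))ᶜ) := by
          refine measure_mono fun x hx => ?_
          by_cases h : x ∈ (S : Set (Bern G))
          · exact Or.inl ⟨h, hx⟩
          · exact Or.inr h
      _ ≤ μ ((S : Set (Bern G)) ∩ T) + μ (S : Set (Bern G))ᶜ := measure_union_le _ _
      _ = _ := by rw [hSc, add_zero]
  have hνr : ∀ T : Set (Bern G), ν.real (Subtype.val ⁻¹' T) = μ.real T := fun T => by
    simp only [measureReal_def, hνp]
  have : IsProbabilityMeasure ν := by
    constructor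
    have := hνp Set.univ
    rw [Set.preimage_univ] at this
    rw [this, measure_univ]
  have hmeas : MeasurableConstSMul G S := by
    constructor
    intro g
    exact ((measurable_const_smul g).comp measurable_subtype_coe).subtype_mk
  have hinv : SMulInvariantMeasure G S ν := by
    constructor
    intro g T hT
    obtain ⟨T', hT', rfl⟩ := hT
    have h1 : (fun x : S => g • x) ⁻¹' (Subtype.val ⁻¹' T') =
        Subtype.val ⁻¹' ((fun x : Bern G => g • x) ⁻¹' T') := rfl
    rw [h1, hνp, hνp, measure_preimage_smul]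
  have hgap : ∀ i, ∀ W : Set S, MeasurableSet W → (∀ x, p i • x ∈ W ↔ x ∈ W) →
      (1 / 3 : ℝ) * (ν.real W * ν.real Wᶜ) ≤
        ν.real (symmDiff W ((fun x => q i • x) ⁻¹' W)) := by
    intro i W hW hpW
    obtain ⟨TP, TN, hdisj, hTP, hTN⟩ := hG.color i
    let W' : Set (Bern G) := Subtype.val '' W
    have hW' : MeasurableSet W' := hemb.measurableSet_image.2 hW
    have hWW' : W = Subtype.val ⁻¹' W' := (Set.preimage_image_eq W Subtype.val_injective).symm
    have hpW' : ∀ x, p i • x ∈ W' ↔ x ∈ W' := by
      intro x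
      constructor
      · rintro ⟨y, hy, hyx⟩
        refine ⟨(p i)⁻¹ • y, ?_, ?_⟩
        · rw [← hpW, smul_inv_smul]
          exact hy
        · show (p i)⁻¹ • (y : Bern G) = x
          rw [hyx, inv_smul_smul]
      · rintro ⟨y, hy, rfl⟩
        exact ⟨p i • y, (hpW y).2 hy, rfl⟩
    have h := bern_gap (p i) (q i) (hG.p3 i) (hG.q3 i) TP TN hdisj hTP hTN W' hW' hpW'
    have h1 : ν.real W = μ.real W' := by
      conv_lhs => rw [hWW']
      exact hνr _
    have h2 : ν.real Wᶜ = μ.real W'ᶜ := by
      conv_lhs => rw [hWW', ← Set.preimage_compl]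
      exact hνr _
    have h3 : ν.real (symmDiff W ((fun x => q i • x) ⁻¹' W)) =
        μ.real (symmDiff W' ((fun x => q i • x) ⁻¹' W')) := by
      have h4 : symmDiff W ((fun x => q i • x) ⁻¹' W) =
          Subtype.val ⁻¹' (symmDiff W' ((fun x => q i • x) ⁻¹' W')) := by
        conv_lhs => rw [hWW']
        rfl
      rw [h4]
      exact hνr _
    rw [h1, h2, h3]
    exact h
  have hsmall : ∃ (m : ℕ) (A : Fin m → Set S), (∀ i, MeasurableSet (A i)) ∧
      (⋃ i, A i = Set.univ) ∧ ∀ i, ν.real (A i) ≤ 1 / 9 := by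
    obtain ⟨m, A, h1, h2, h3⟩ := Vale.Agent.P189.bern_small G 8
    refine ⟨m, fun i => Subtype.val ⁻¹' A i, fun i => (h1 i).preimage measurable_subtype_coe,
      ?_, fun i => ?_⟩
    · rw [← Set.preimage_iUnion, h2, Set.preimage_univ]
    · rw [hνr]
      refine (h3 i).trans ?_
      norm_num
  have key := lower_free_multi (G := G) (X := S) ν
    (fun g x hx => hSfree x x.2 g (congrArg Subtype.val hx)) hG hgap hsmall s
    (subD S D) (fun g => (hD g).preimage measurable_subtype_coe) (by
      intro x g
      obtain ⟨hy, h⟩ := (conn_subD S D (hSconn x x.2 g)).1 x.2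
      exact h)
  refine key.trans (le_of_eq ?_)
  refine tsum_congr fun g => ?_
  exact hνp (D g)

end Vale.Agent.P189.M
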