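import Vale.Agent.P189.H741.L4
import Vale.Agent.P189.H741.Iface2

set_option autoImplicit false

open MeasureTheory
open scoped ENNReal Pointwise symmDiff

namespace Vale.Agent.P189.M

/-- The Bernoulli action has a conull part on which the group acts freely everywhere. -/
theorem exists_model (G ι : Type) [Group G] [Countable G] (p q : ι → G) (t : G)
    (hG : MultiData G ι p q t) :
    ∃ (X : Type) (_ : MeasurableSpace X) (_ : StandardBorelSpace X) (μ : Measure X)
      (_ : IsProbabilityMeasure μ) (_ : MulAction G X) (_ : MeasurableConstSMul G X)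
      (_ : SMulInvariantMeasure G X μ), (∀ (g : G) (x : X), g • x = x → g = 1) ∧
      (∀ i, ∀ W : Set X, MeasurableSet W → (∀ x, p i • x ∈ W ↔ x ∈ W) →
        (1 / 3 : ℝ) * (μ.real W * μ.real Wᶜ) ≤
          μ.real (symmDiff W ((fun x => q i • x) ⁻¹' W))) ∧
      (∃ (m : ℕ) (A : Fin m → Set X), (∀ i, MeasurableSet (A i)) ∧
        (⋃ i, A i = Set.univ) ∧ ∀ i, μ.real (A i) ≤ 1 / 9) := by
  classical
  set μ := bernMeasure G with hμ
  have hfree := bern_free G
  -- the bad null set
  let N0 : Set (Bern G) := ⋃ g : G, ⋃ _ : g ≠ 1, {x | g • x = x}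
  have hN0 : μ N0 = 0 :=
    measure_iUnion_null fun g => measure_iUnion_null fun hg => hfree g hg
  let N : Set (Bern G) := toMeasurable μ N0
  have hN : MeasurableSet N := measurableSet_toMeasurable _ _
  have hN' : μ N = 0 := by rw [measure_toMeasurable, hN0]
  let S : SubMulAction G (Bern G) :=
    { carrier := {x | ∀ g : G, g • x ∉ N}
      smul_mem' := by
        intro h x hx g
        rw [← mul_smul]
        exact hx _ }
  have hSm : MeasurableSet (S : Set (Bern G)) := by
    have : (S : Set (Bern G)) = ⋂ g : G, (fun x => g • x) ⁻¹' Nᶜ := by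
      ext x
      rw [Set.mem_iInter]
      exact Iff.rfl
    rw [this]
    exact MeasurableSet.iInter fun g => hN.compl.preimage (measurable_const_smul g)
  have hSc : μ (S : Set (Bern G))ᶜ = 0 := by
    have : (S : Set (Bern G))ᶜ = ⋃ g : G, (fun x => g • x) ⁻¹' N := by
      ext x
      rw [Set.mem_iUnion]
      have h1 : x ∈ (S : Set (Bern G))ᶜ ↔ ¬ ∀ g : G, g • x ∉ N := Iff.rfl
      rw [h1]
      push Not
      exact Iff.rfl
    rw [this]
    refine measure_iUnion_null fun g => ?_
    rw [measure_preimage_smul]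
    exact hN'
  have hSN0 : ∀ x ∈ S, x ∉ N0 := by
    intro x hx hx0
    have h1 := hx 1
    rw [one_smul] at h1
    exact h1 (subset_toMeasurable _ _ hx0)
  have hSfree : ∀ x ∈ S, ∀ g : G, g • x = x → g = 1 := by
    intro x hx g hg
    by_contra h
    exact hSN0 x hx (Set.mem_iUnion.2 ⟨g, Set.mem_iUnion.2 ⟨h, hg⟩⟩)
  -- the measure on the subtype
  have : StandardBorelSpace S := hSm.standardBorel
  let ν : Measure S := μ.comap Subtype.val
  have hemb : MeasurableEmbedding (Subtype.val : S → Bern G) := MeasurableEmbedding.subtype_coe hSm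
  have hν : ∀ T : Set S, ν T = μ (Subtype.val '' T) := fun T => hemb.comap_apply _ _
  have hνp : ∀ T : Set (Bern G), ν (Subtype.val ⁻¹' T) = μ T := by
    intro T
    rw [hν]
    have h0 : (Subtype.val : S → Bern G) '' (Subtype.val ⁻¹' T) = (S : Set (Bern G)) ∩ T :=
      Subtype.image_preimage_coe (S : Set (Bern G)) T
    rw [h0]
    refine le_antisymm (measure_mono Set.inter_subset_right) ?_
    calc μ T ≤ μ (((S : Set (Bern G)) ∩ T) ∪ (S : Set (Bern G))ᶜ) := by
          refine measure_mono fun x hx => ?_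
          by_cases h : x ∈ (S : Set (Bern G))
          · exact Or.inl ⟨h, hx⟩
          · exact Or.inr h
      _ ≤ μ ((S : Set (Bern G)) ∩ T) + μ (S : Set (Bern G))ᶜ := measure_union_le _ _
      _ = _ := by rw [hSc, add_zero]
  have hνr : ∀ T : Set (Bern G), ν.real (Subtype.val ⁻¹' T) = μ.real T := fun T => by
    simp only [measureReal_def, hνp]
  have : IsProbabilityMeasure ν := by
    constructor
    have := hνp Set.univ
    rw [Set.preimage_univ] at this
    rw [this, measure_univ]
  have hmeas : MeasurableConstSMul G S := by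
    constructor
    intro g
    exact ((measurable_const_smul g).comp measurable_subtype_coe).subtype_mk
  have hinv : SMulInvariantMeasure G S ν := by
    constructor
    intro g T hT
    obtain ⟨T', hT', rfl⟩ := hT
    have h1 : (fun x : S => g • x) ⁻¹' (Subtype.val ⁻¹' T') =
        Subtype.val ⁻¹' ((fun x : Bern G => g • x) ⁻¹' T') := rfl
    rw [h1, hνp, hνp, measure_preimage_smul]
  have hgap : ∀ i, ∀ W : Set S, MeasurableSet W → (∀ x, p i • x ∈ W ↔ x ∈ W) →
      (1 / 3 : ℝ) * (ν.real W * ν.real Wᶜ) ≤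
        ν.real (symmDiff W ((fun x => q i • x) ⁻¹' W)) := by
    intro i W hW hpW
    obtain ⟨TP, TN, hdisj, hTP, hTN⟩ := hG.color i
    let W' : Set (Bern G) := Subtype.val '' W
    have hW' : MeasurableSet W' := hemb.measurableSet_image.2 hW
    have hWW' : W = Subtype.val ⁻¹' W' := (Set.preimage_image_eq W Subtype.val_injective).symm
    have hpW' : ∀ x, p i • x ∈ W' ↔ x ∈ W' := by
      intro x
      constructor
      · rintro ⟨y, hy, hyx⟩
        refine ⟨(p i)⁻¹ • y, ?_, ?_⟩
        · rw [← hpW, smul_inv_smul]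
          exact hy
        · show (p i)⁻¹ • (y : Bern G) = x
          rw [hyx, inv_smul_smul]
      · rintro ⟨y, hy, rfl⟩
        exact ⟨p i • y, (hpW y).2 hy, rfl⟩
    have h := bern_gap (p i) (q i) (hG.p3 i) (hG.q3 i) TP TN hdisj hTP hTN W' hW' hpW'
    have h1 : ν.real W = μ.real W' := by
      conv_lhs => rw [hWW']
      exact hνr _
    have h2 : ν.real Wᶜ = μ.real W'ᶜ := by
      conv_lhs => rw [hWW', ← Set.preimage_compl]
      exact hνr _
    have h3 : ν.real (symmDiff W ((fun x => q i • x) ⁻¹' W)) =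
        μ.real (symmDiff W' ((fun x => q i • x) ⁻¹' W')) := by
      have h4 : symmDiff W ((fun x => q i • x) ⁻¹' W) =
          Subtype.val ⁻¹' (symmDiff W' ((fun x => q i • x) ⁻¹' W')) := by
        conv_lhs => rw [hWW']
        rfl
      rw [h4]
      exact hνr _
    rw [h1, h2, h3]
    exact h
  have hsmall : ∃ (m : ℕ) (A : Fin m → Set S), (∀ i, MeasurableSet (A i)) ∧
      (⋃ i, A i = Set.univ) ∧ ∀ i, ν.real (A i) ≤ 1 / 9 := by
    obtain ⟨m, A, h1, h2, h3⟩ := Vale.Agent.P189.bern_small G 8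
    refine ⟨m, fun i => Subtype.val ⁻¹' A i, fun i => (h1 i).preimage measurable_subtype_coe,
      ?_, fun i => ?_⟩
    · rw [← Set.preimage_iUnion, h2, Set.preimage_univ]
    · rw [hνr]
      refine (h3 i).trans ?_
      norm_num
  exact ⟨S, inferInstance, hSm.standardBorel, ν, this, inferInstance, hmeas, hinv,
    fun g x hx => hSfree x x.2 g (congrArg Subtype.val hx), hgap, hsmall⟩

section Mid

variable {G X ι : Type} [Group G] [Countable G] [MeasurableSpace X]
    [StandardBorelSpace X] (μ : Measure X) [IsProbabilityMeasure μ] [MulAction G X]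
    [MeasurableConstSMul G X] [SMulInvariantMeasure G X μ]
    (hfree : ∀ (g : G) (x : X), g • x = x → g = 1)
    {p q : ι → G} {t : G} (hG : MultiData G ι p q t)

include hfree hG

/-- Reduction to the copies in `s`. -/
theorem reduce_free (s : Finset ι) (D : G → Set X) (hD : ∀ g, MeasurableSet (D g))
    (hgen : ∀ (x : X) (g : G), Conn D x (g • x)) (ε : ℝ≥0∞) (hε : 0 < ε) :
    ∃ DA : G → Set X, (∀ g, MeasurableSet (DA g)) ∧
      (∀ g, (DA g).Nonempty → g ∈ sub p q t (s : Set ι)) ∧
      (∀ (x : X), ∀ g ∈ sub p q t (s : Set ι),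
        Conn (fun h => fl X (base p q t (s : Set ι)) h ∪ DA h) x (g • x)) ∧
      1 + dcost μ DA ≤ dcost μ D + ε := by
  classical
  have : Infinite (Subgroup.zpowers t) := by
    refine Infinite.of_injective (fun n : ℕ => (⟨t ^ n, Subgroup.npow_mem_zpowers t n⟩ :
      Subgroup.zpowers t)) ?_
    intro m n h
    have h' : t ^ m = t ^ n := congrArg Subtype.val h
    rcases le_total m n with hmn | hmn
    · have : t ^ (n - m) = 1 := by
        rw [pow_sub t hmn, ← h', mul_inv_cancel]
      have := hG.tinf _ this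
      omega
    · have : t ^ (m - n) = 1 := by
        rw [pow_sub t hmn, ← h', mul_inv_cancel]
      have := hG.tinf _ this
      omega
  have hdisj : Disjoint (s : Set ι) ((s : Set ι)ᶜ) := disjoint_compl_right
  have hsup : sub p q t (s : Set ι) ⊔ sub p q t (s : Set ι)ᶜ = ⊤ := by
    rw [sub_union, Set.union_compl_self]
    exact hG.gen
  have hinf := hG.split_inf _ _ hdisj
  have hη : (0 : ℝ≥0∞) < ε / 3 := ENNReal.div_pos hε.ne' (by simp)
  set η := ε / 3 with hηdef
  obtain ⟨D1, hD1, hD1c, hD1cost⟩ := relcost0 μ hfree (Subgroup.zpowers t) D hD hgen η hη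
  set C : Set G := base p q t (s : Set ι) ∪ (sub p q t (s : Set ι)ᶜ : Set G) with hC
  obtain ⟨D2, hD2, hD2f, -, hD2c, hD2cost⟩ := truncate_set μ hfree C (s.image q) D1 hD1
    (fun g _ x => by
      refine Conn.mono (fun h y hy => ?_) (hD1c x g)
      rcases hy with hy | hy
      · exact Or.inl (Or.inl (Or.inl hy))
      · exact Or.inr hy) η hη
  have hD2gen : ∀ (x : X) (g : G), Conn (fun h => fl X C h ∪ D2 h) x (g • x) := by
    intro x g
    have hg : g ∈ sub p q t Set.univ := by rw [hG.gen]; trivial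
    refine conn_sub (J := Set.univ) ?_ ?_ ?_ hg x
    · intro j _ y
      refine Conn.of_mem (D := fun h => fl X C h ∪ D2 h) (Or.inl ?_)
      by_cases hj : j ∈ (s : Set ι)
      · exact Or.inl (Or.inr ⟨j, hj, p_mem_Bs j⟩)
      · exact Or.inr (p_mem_sub hj)
    · intro j _ y
      by_cases hj : j ∈ (s : Set ι)
      · exact hD2c _ (Finset.mem_image_of_mem q (Finset.mem_coe.1 hj)) y
      · exact Conn.of_mem (D := fun h => fl X C h ∪ D2 h) (Or.inl (Or.inr (q_mem_sub hj)))
    · intro y
      exact Conn.of_mem (D := fun h => fl X C h ∪ D2 h)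
        (Or.inl (Or.inl (Or.inl (Subgroup.mem_zpowers t))))
  obtain ⟨DA, DB, hDA, -, hDAl, -, hDAc, -, hcost⟩ := amalgam2 μ hfree
    (sub p q t (s : Set ι)) (sub p q t (s : Set ι)ᶜ) (hG.split_nf _ _ hdisj)
    (base p q t (s : Set ι)) (sub p q t (s : Set ι)ᶜ : Set G) (fun g hg => base_sub hg)
    (fun g hg => hg)
    (fun g hg => by rw [hinf] at hg; exact Or.inl hg)
    (fun g hg => (Subgroup.mem_inf.1 hg).2) D2 hD2 hD2f
    (fun g _ => by rw [hsup]; trivial) (fun x g _ => hD2gen x g) η hη
  refine ⟨DA, hDA, hDAl, hDAc, ?_⟩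
  calc 1 + dcost μ DA ≤ 1 + ((dcost μ D1 + η) + η) := by
        gcongr
        exact (le_add_right le_rfl).trans (hcost.trans (by gcongr))
    _ = (dcost μ D1 + 1) + η + η := by ring
    _ ≤ (dcost μ D + η) + η + η := by gcongr
    _ = dcost μ D + (η + η + η) := by ring
    _ = dcost μ D + ε := by rw [hηdef, ENNReal.add_thirds]

end Mid

section Fibre

variable {G X V : Type} [Group G] [MulAction G X] [MulAction G V]

/-- The fibre over `v`. -/
def fib (D : G → Set (X × V)) (v : V) (g : G) : Set X := {x | (x, v) ∈ D g}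

theorem conn_fib {S : Set G} {D : G → Set (X × V)} (hS : ∀ g ∈ S, ∀ v : V, g • v = v)
    (hD : ∀ g, (D g).Nonempty → ∀ v : V, g • v = v) {y z : X × V}
    (h : Conn (fun h => fl (X × V) S h ∪ D h) y z) :
    z.2 = y.2 ∧ Conn (fun h => fl X S h ∪ fib D y.2 h) y.1 z.1 := by
  induction h with
  | rel a b h =>
    obtain ⟨g, hg | hg, rfl⟩ := h
    · exact ⟨hS g hg a.2, Conn.of_mem (D := fun h => fl X S h ∪ fib D a.2 h) (Or.inl hg)⟩
    · exact ⟨hD g ⟨a, hg⟩ a.2, Conn.of_mem (D := fun h => fl X S h ∪ fib D a.2 h) (Or.inr hg)⟩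
  | refl a => exact ⟨rfl, Conn.refl _ _⟩
  | symm a b _ ih =>
    refine ⟨ih.1.symm, ?_⟩
    rw [ih.1]
    exact ih.2.symm
  | trans a b c _ _ ih1 ih2 =>
    refine ⟨ih2.1.trans ih1.1, ?_⟩
    rw [ih1.1] at ih2
    exact ih1.2.trans ih2.2

omit [Group G] [MulAction G X] [MulAction G V] in
theorem lintegral_fib [Countable G] [MeasurableSpace X] [MeasurableSpace V] (μ : Measure X)
    [SFinite μ] (ν : Measure V) [SFinite ν] (D : G → Set (X × V))
    (hD : ∀ g, MeasurableSet (D g)) :
    ∫⁻ v, dcost μ (fib D v) ∂ν = dcost (μ.prod ν) D := by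
  unfold dcost
  rw [lintegral_tsum (fun g => ?_)]
  · refine tsum_congr fun g => ?_
    rw [Measure.prod_apply_symm (hD g)]
    rfl
  · exact (measurable_measure_prodMk_right (hD g)).aemeasurable

end Fibre

/-- The lower bound for the product of an everywhere free action with gaps and an action on
which the copies in `s` act trivially. -/
theorem mid_lower {G X V ι : Type} [Group G] [Countable G] [MeasurableSpace X]
    [StandardBorelSpace X] (μ : Measure X) [IsProbabilityMeasure μ] [MulAction G X]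
    [MeasurableConstSMul G X] [SMulInvariantMeasure G X μ]
    (hfree : ∀ (g : G) (x : X), g • x = x → g = 1)
    {p q : ι → G} {t : G} (hG : MultiData G ι p q t)
    (hgap : ∀ i, ∀ W : Set X, MeasurableSet W → (∀ x, p i • x ∈ W ↔ x ∈ W) →
      (1 / 3 : ℝ) * (μ.real W * μ.real Wᶜ) ≤ μ.real (symmDiff W ((fun x => q i • x) ⁻¹' W)))
    (hsmall : ∃ (m : ℕ) (A : Fin m → Set X), (∀ i, MeasurableSet (A i)) ∧
      (⋃ i, A i = Set.univ) ∧ ∀ i, μ.real (A i) ≤ 1 / 9)
    [MeasurableSpace V] [StandardBorelSpace V] (ν : Measure V) [IsProbabilityMeasure ν]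
    [MulAction G V] [MeasurableConstSMul G (X × V)] [SMulInvariantMeasure G (X × V) (μ.prod ν)]
    (s : Finset ι) (htriv : ∀ g ∈ sub p q t (s : Set ι), ∀ v : V, g • v = v)
    (D : G → Set (X × V)) (hD : ∀ g, MeasurableSet (D g)) (hgen : Gen (μ.prod ν) D) :
    1 + (s.card : ℝ≥0∞) * ENNReal.ofReal (1 / 81) ≤ dcost (μ.prod ν) D := by
  classical
  -- make the graph generating everywhere
  let N : Set (X × V) := toMeasurable (μ.prod ν) {y | ¬ ∀ g : G, Conn D y (g • y)}
  have hN : MeasurableSet N := measurableSet_toMeasurable _ _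
  have hN' : (μ.prod ν) N = 0 := by rw [measure_toMeasurable]; exact hgen
  let D1 : G → Set (X × V) := fun g => D g ∪ N
  have hD1 : ∀ g, MeasurableSet (D1 g) := fun g => (hD g).union hN
  have hD1cost : dcost (μ.prod ν) D1 ≤ dcost (μ.prod ν) D := by
    refine ENNReal.tsum_le_tsum fun g => (measure_union_le _ _).trans ?_
    rw [hN', add_zero]
  have hD1gen : ∀ (y : X × V) (g : G), Conn D1 y (g • y) := by
    intro y g
    by_cases hy : y ∈ N
    · exact Conn.of_mem (D := D1) (Or.inr hy)
    · have h1 : ∀ g : G, Conn D y (g • y) := by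
        by_contra h
        exact hy (subset_toMeasurable _ _ h)
      exact (h1 g).mono fun h => Set.subset_union_left
  refine ENNReal.le_of_forall_pos_le_add fun ε hε _ => ?_
  obtain ⟨DA, hDA, hDAl, hDAc, hcost⟩ := reduce_free (μ.prod ν)
    (fun g y h => hfree g y.1 (congrArg Prod.fst h)) hG s D1 hD1 hD1gen (ε : ℝ≥0∞)
    (by simpa using hε)
  have hfibre : ∀ v : V, (s.card : ℝ≥0∞) * ENNReal.ofReal (1 / 81) ≤ dcost μ (fib DA v) := by
    intro v
    refine multi_copy μ hfree hG hgap hsmall s (fib DA v)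
      (fun g => measurable_prodMk_right (hDA g)) (fun g hg => ?_) (fun x g hg => ?_)
    · obtain ⟨x, hx⟩ := hg
      exact hDAl g ⟨_, hx⟩
    · have h := conn_fib (fun g hg => htriv g (base_sub hg)) (fun g hg => htriv g (hDAl g hg))
        (hDAc (x, v) g hg)
      exact h.2
  have hint : (s.card : ℝ≥0∞) * ENNReal.ofReal (1 / 81) ≤ dcost (μ.prod ν) DA := by
    rw [← lintegral_fib μ ν DA hDA]
    calc (s.card : ℝ≥0∞) * ENNReal.ofReal (1 / 81)
        = ∫⁻ _ : V, (s.card : ℝ≥0∞) * ENNReal.ofReal (1 / 81) ∂ν := by simp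
      _ ≤ _ := lintegral_mono hfibre
  calc 1 + (s.card : ℝ≥0∞) * ENNReal.ofReal (1 / 81) ≤ 1 + dcost (μ.prod ν) DA := by gcongr
    _ ≤ dcost (μ.prod ν) D1 + ε := hcost
    _ ≤ dcost (μ.prod ν) D + ε := by gcongr

end Vale.Agent.P189.M
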