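import Vale.Agent.P189.H738.Upper
import Vale.Agent.P189.H741.Iface2

set_option autoImplicit false
set_option linter.all false

open MeasureTheory
open scoped ENNReal Pointwise

namespace Vale.Agent.P189.M

open UpperAux UpAux

theorem midUpperSt : MidUpperSt := by
  classical
  intro G ι _ _ _ p q t hM hlift s
  have hinft : Infinite (Subgroup.zpowers t) := by
    refine Infinite.of_injective (fun n : ℕ => (⟨t ^ n, Subgroup.npow_mem_zpowers t n⟩ :
      Subgroup.zpowers t)) ?_
    intro m n h
    have h' : t ^ m = t ^ n := congrArg Subtype.val h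
    rcases le_total m n with hmn | hmn
    · have : t ^ (n - m) = 1 := by
        rw [pow_sub t hmn, ← h', mul_inv_cancel]
      have := hM.tinf _ this
      omega
    · have : t ^ (m - n) = 1 := by
        rw [pow_sub t hmn, ← h', mul_inv_cancel]
      have := hM.tinf _ this
      omega
  obtain ⟨φ, hφp, hφq, hφt⟩ := hlift KK (fun i => if i ∈ s then 1 else kp)
    (fun i => if i ∈ s then 1 else kq)
    (fun i => by
      by_cases h : i ∈ s
      · simp [h]
      · simp only [h, if_false]; exact kp_cube)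
    (fun i => by
      by_cases h : i ∈ s
      · simp [h]
      · simp only [h, if_false]; exact kq_cube)
  let actV : MulAction G VV := MulAction.compHom VV φ
  have hsm : ∀ (g : G) (v : VV), g • v = φ g • v := fun g v => rfl
  have hmV : MeasurableConstSMul G VV := ⟨fun g => by
    exact measurable_const_smul (φ g)⟩
  have hiV : SMulInvariantMeasure G VV vm := ⟨fun g s hs => by
    exact SMulInvariantMeasure.measure_preimage_smul (φ g) hs⟩
  refine ⟨VV, inferInstance, inferInstance, vm, inferInstance, actV, hmV, hiV, ?_, ?_⟩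
  · -- triviality
    have hker : sub p q t (s : Set ι) ≤ φ.ker := by
      unfold sub
      rw [Subgroup.closure_le]
      rintro g ((⟨i, hi, rfl⟩ | ⟨i, hi, rfl⟩) | hg)
      · show φ (p i) = 1
        rw [hφp, if_pos (Finset.mem_coe.1 hi)]
      · show φ (q i) = 1
        rw [hφq, if_pos (Finset.mem_coe.1 hi)]
      · rw [Set.mem_singleton_iff.1 hg]
        exact hφt
    intro g hg v
    rw [hsm, MonoidHom.mem_ker.1 (hker hg), one_smul]
  intro X _ _ μ _ _ _ _ hfree
  have hmY : MeasurableConstSMul G (X × VV) := prod_meas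
  have hiY : SMulInvariantMeasure G (X × VV) (μ.prod vm) := prod_inv _ _
  refine ENNReal.le_of_forall_pos_le_add fun ε hε _ => ?_
  have hε3 : (ε : ℝ≥0∞) / 3 ≠ 0 := by
    refine ENNReal.div_ne_zero.2 ⟨by simpa using hε.ne', by simp⟩
  obtain ⟨δ, hδ, hδs⟩ := ENNReal.exists_pos_sum_of_countable hε3 ι
  have hsec : ∀ i, ∃ E : Set X, MeasurableSet E ∧ μ E ≤ δ i ∧
      ∀ x, ∃ g ∈ Subgroup.zpowers t, g • x ∈ E := by
    intro i
    obtain ⟨E, hE, hμE, hEc⟩ := exists_small_section (Γ := Subgroup.zpowers t) μ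
      (hfree.subgroup _) (ε := (δ i : ℝ≥0∞)) (by simpa using hδ i)
    exact ⟨E, hE, hμE, fun x => by
      obtain ⟨g, hg⟩ := hEc x
      exact ⟨g, g.2, hg⟩⟩
  choose E hEm hEμ hEc using hsec
  have hnn : ∀ i, ∃ n : ℕ, vm (SS n) ≤ δ i := by
    intro i
    obtain ⟨n, hn⟩ := ENNReal.exists_inv_nat_lt (a := (δ i : ℝ≥0∞)) (by simpa using (hδ i).ne')
    refine ⟨n, ?_⟩
    rw [vm_SS]
    refine le_trans (ENNReal.inv_le_inv.2 ?_) hn.le
    push_cast
    calc (n : ℝ≥0∞) ≤ 1 * ((n : ℝ≥0∞) + 1) := by rw [one_mul]; exact le_self_add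
      _ ≤ 3 * ((n : ℝ≥0∞) + 1) := by gcongr; norm_num
  choose n hn using hnn
  let S : ι → Set VV := fun i => if i ∈ s then Set.univ else SS (n i)
  have hSm : ∀ i, MeasurableSet (S i) := by
    intro i
    by_cases h : i ∈ s
    · simp only [S, h, if_true]; exact MeasurableSet.univ
    · simp only [S, h, if_false]; exact measurableSet_SS (n i)
  have hSμ : ∀ i, vm (S i) ≤ (if i ∈ s then 1 else 0) + δ i := by
    intro i
    by_cases h : i ∈ s
    · simp only [S, h, if_true, measure_univ]; exact le_self_add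
    · simp only [S, h, if_false, zero_add]; exact hn i
  have hmeas : ∀ g, MeasurableSet (mD p q t E S g) := fun g =>
    (measurableSet_single t MeasurableSet.univ g).union
      (MeasurableSet.iUnion fun i => measurableSet_cop _ _ (hEm i) (hSm i) g)
  have hgen : Gen (μ.prod vm) (mD p q t E S) := by
    refine Filter.Eventually.of_forall fun y g => ?_
    refine mD_gen p q t hM.p3 hM.q3 hM.tp hM.tr hM.gen E S hEc ?_ y g
    intro i Q hS h1 h2
    by_cases h : i ∈ s
    · simp only [S, h, if_true] at hS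
      exact Set.univ_subset_iff.1 hS
    · simp only [S, h, if_false] at hS
      have hpV : ∀ (v : VV), p i • v = kp • v := fun v => by rw [hsm, hφp, if_neg h]
      have hqV : ∀ (v : VV), q i • v = kq • v := fun v => by rw [hsm, hφq, if_neg h]
      refine SS_perc (n i) Q hS (fun v hv => ?_) (fun v hv hv' => ?_)
      · rw [← hpV]; exact h1 v hv
      · rw [← hqV, ← hqV]
        rw [← hqV] at hv'
        exact h2 v hv hv'
  have hcard : ∑' i : ι, (if i ∈ s then (1 : ℝ≥0∞) else 0) = s.card := by
    rw [tsum_eq_sum (s := s) (fun i hi => by rw [if_neg hi])]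
    rw [Finset.sum_congr rfl fun i hi => if_pos hi]
    simp
  calc actionCost G (X × VV) (μ.prod vm)
      ≤ dcost (μ.prod vm) (mD p q t E S) := actionCost_le_dcost _ _ hmeas hgen
    _ ≤ 1 + ∑' i, ((δ i : ℝ≥0∞) + (δ i + ((if i ∈ s then 1 else 0) + δ i))) := by
        refine (dcost_union_le _ (single t Set.univ) _).trans ?_
        rw [dcost_single, measure_univ]
        refine add_le_add le_rfl ?_
        refine (dcost_iU_le (ι := ι) _ (fun (i : ι) => cop (p i) (q i) (E i) (S i))).trans ?_
        refine ENNReal.tsum_le_tsum fun i => ?_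
        refine (dcost_cop _ _ _ _ _ _).trans ?_
        exact add_le_add (hEμ i) (add_le_add (hEμ i) (hSμ i))
    _ = 1 + (∑' i : ι, (if i ∈ s then (1 : ℝ≥0∞) else 0) + 3 * ∑' i, (δ i : ℝ≥0∞)) := by
        rw [← ENNReal.tsum_mul_left, ← ENNReal.tsum_add]
        congr 2
        funext i
        ring
    _ ≤ 1 + (s.card + 3 * ((ε : ℝ≥0∞) / 3)) := by rw [hcard]; gcongr
    _ = 1 + s.card + ε := by
        rw [ENNReal.mul_div_cancel (by norm_num) (by norm_num), add_assoc]

end Vale.Agent.P189.M
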