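import Vale.Agent.P189.H741.Main0
import Vale.Agent.P189.H741.Mid
import Vale.Agent.P189.H741.Conv

set_option autoImplicit false

open MeasureTheory
open scoped ENNReal

namespace Vale.Agent.P189.M

theorem gam_fg (k : ℕ) : Group.FG (Gam (Fin k)) := by
  refine ⟨⟨Set.Finite.toFinset (s := Set.range (PresentedGroup.of (rels := rels (Fin k))))
    (Set.finite_range _), ?_⟩⟩
  rw [Set.Finite.coe_toFinset]
  exact PresentedGroup.closure_range_of _

theorem rels_finite (k : ℕ) : (rels (Fin k)).Finite := by
  unfold rels
  exact Set.finite_iUnion fun i => Set.toFinite _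

end Vale.Agent.P189.M
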