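import Vale.Agent.P189.H741.L5
import Vale.Agent.P189.H741.Grp2
import Vale.Agent.P189.H962.Pres
import Vale.Agent.P189.H962.Split
import Vale.Agent.P189.H738.Upper

set_option autoImplicit false

open MeasureTheory
open scoped ENNReal Pointwise

namespace Vale.Agent.P189.M

/-- The model has all the properties. -/
theorem groupSt : GroupSt := by
  intro ι _
  refine ⟨MG ι, inferInstance, mp, mq, mt, multiData_of (fun J J' h => split_nf J J' h)
    (fun J J' h => split_inf J J' h), ?_⟩
  intro K _ a b c h1 h2 h3 h4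
  exact exists_homM a b c h1 h2 h3 h4

/-- The presented group has all the properties. -/
theorem multiData (ι : Type) [Countable ι] : MultiData (Gam ι) ι gP gQ gT := presSt groupSt ι

/-- The universal property of the presented group. -/
theorem gam_lift (ι K : Type) [Group K] (a b : ι → K) (ha : ∀ i, a i ^ 3 = 1)
    (hb : ∀ i, b i ^ 3 = 1) :
    ∃ φ : Gam ι →* K, (∀ i, φ (gP i) = a i) ∧ (∀ i, φ (gQ i) = b i) ∧ φ gT = 1 := by
  let f : Option (ι × Bool) → K := fun x => match x with
    | none => 1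
    | some (i, true) => a i
    | some (i, false) => b i
  have hf : ∀ r ∈ rels ι, FreeGroup.lift f r = 1 := by
    intro r hr
    obtain ⟨i, hi⟩ := Set.mem_iUnion.1 hr
    simp only [Set.mem_insert_iff, Set.mem_singleton_iff] at hi
    rcases hi with rfl | rfl | rfl | rfl
    · simp [f, ha]
    · simp [f, hb]
    · simp [f]
    · simp [f]
  exact ⟨PresentedGroup.toGroup hf, fun i => PresentedGroup.toGroup.of hf,
    fun i => PresentedGroup.toGroup.of hf, PresentedGroup.toGroup.of hf⟩

theorem gam_countable (ι : Type) [Countable ι] : Countable (Gam ι) :=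
  UpAux.countable_of_gen gP gQ gT (multiData ι).gen

theorem gam_infinite (ι : Type) [Countable ι] : Infinite (Gam ι) := by
  have hM := multiData ι
  refine Infinite.of_injective (fun n : ℕ => (gT : Gam ι) ^ n) ?_
  intro m n h
  have h' : (gT : Gam ι) ^ m = gT ^ n := h
  rcases le_total m n with hmn | hmn
  · have : (gT : Gam ι) ^ (n - m) = 1 := by
      rw [pow_sub _ hmn, ← h', mul_inv_cancel]
    have := hM.tinf _ this
    omega
  · have : (gT : Gam ι) ^ (m - n) = 1 := by
      rw [pow_sub _ hmn, ← h', mul_inv_cancel]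
    have := hM.tinf _ this
    omega

/-- Levitt's lower bound. -/
theorem one_le_of_attains {G : Type} [Group G] [Countable G] [Infinite G] {c : ℝ≥0∞}
    (h : Attains G c) : 1 ≤ c := by
  obtain ⟨X, _, _, μ, _, _, _, _, hfree, rfl⟩ := h
  exact one_le_actionCost μ hfree

theorem attains_one (ι : Type) [Countable ι] : Attains (Gam ι) 1 := by
  obtain ⟨Y, h1, h2, ν, h3, h4, h5, h6, h7, h8⟩ := upperSt (Gam ι) ι gP gQ gT (multiData ι)
  exact ⟨Y, h1, h2, ν, h3, h4, h5, h6, h7, h8⟩

/-- Finite costs at least `1 + n / 81`. -/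
theorem attains_mid (hM : MidUpperSt) (ι : Type) [Countable ι] (s : Finset ι) :
    ∃ c : ℝ≥0∞, 1 + (s.card : ℝ≥0∞) / 81 ≤ c ∧ c ≠ ⊤ ∧ Attains (Gam ι) c := by
  have := gam_countable ι
  obtain ⟨V, _, _, ν, _, _, hmV, hiV, htriv, hup⟩ := hM (Gam ι) ι gP gQ gT (multiData ι)
    (fun K _ a b ha hb => gam_lift ι K a b ha hb) s
  obtain ⟨X, _, _, μ, _, _, hmX, hiX, hfree, hgap, hsmall⟩ :=
    exists_model (Gam ι) ι gP gQ gT (multiData ι)
  have hmY : MeasurableConstSMul (Gam ι) (X × V) := UpAux.prod_meas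
  have hiY : SMulInvariantMeasure (Gam ι) (X × V) (μ.prod ν) := UpAux.prod_inv _ _
  have hfreeX : EssentiallyFree (Gam ι) X μ := by
    intro g hg
    have : {x : X | g • x = x} = ∅ :=
      Set.eq_empty_of_forall_notMem fun x hx => hg (hfree g x hx)
    rw [this, measure_empty]
  refine ⟨actionCost (Gam ι) (X × V) (μ.prod ν), ?_, ?_, X × V, inferInstance, inferInstance,
    μ.prod ν, inferInstance, inferInstance, hmY, hiY, prod_essentiallyFree _ _ hfreeX, rfl⟩
  · have h81 : ENNReal.ofReal (1 / 81) = (81 : ℝ≥0∞)⁻¹ := by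
      rw [one_div, ENNReal.ofReal_inv_of_pos (by norm_num)]
      norm_num
    rw [div_eq_mul_inv, ← h81]
    exact le_actionCost_of_forall _ fun D hD hgen =>
      mid_lower μ hfree (multiData ι) hgap hsmall ν s htriv D hD hgen
  · refine ((hup X μ hfreeX).trans_lt ?_).ne
    exact ENNReal.add_lt_top.2 ⟨by simp, by simp⟩

/-- Costs are convex, hence form an interval. -/
theorem attains_Icc (hC : ConvSt) {G : Type} [Group G] [Countable G] {c d : ℝ≥0∞}
    (h1 : Attains G 1) (hd : Attains G d) (hdt : d ≠ ⊤) (hc1 : 1 ≤ c) (hcd : c ≤ d) :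
    Attains G c := by
  have hct : c ≠ ⊤ := (hcd.trans_lt (lt_top_iff_ne_top.2 hdt)).ne
  rcases eq_or_lt_of_le (hc1.trans hcd) with h | h
  · have : c = 1 := le_antisymm (h ▸ hcd) hc1
    rw [this]; exact h1
  · have hd0 : d - 1 ≠ 0 := (tsub_pos_of_lt h).ne'
    have hdt' : d - 1 ≠ ⊤ := ENNReal.sub_ne_top hdt
    set b : ℝ≥0∞ := (c - 1) / (d - 1) with hb
    have hb1 : b ≤ 1 := by
      rw [hb]
      exact ENNReal.div_le_of_le_mul (by rw [one_mul]; exact tsub_le_tsub_right hcd 1)
    have hab : (1 - b) + b = 1 := tsub_add_cancel_of_le hb1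
    have h2 := hC G (1 - b) b 1 d hab h1 hd
    have h3 : (1 - b) * 1 + b * d = c := by
      have hd' : d = 1 + (d - 1) := (add_tsub_cancel_of_le h.le).symm
      calc (1 - b) * 1 + b * d = (1 - b) * 1 + b * (1 + (d - 1)) := by rw [← hd']
        _ = ((1 - b) + b) + b * (d - 1) := by ring
        _ = 1 + (c - 1) := by
          rw [hab, hb, ENNReal.div_mul_cancel hd0 hdt']
        _ = c := add_tsub_cancel_of_le hc1
    rwa [h3] at h2

/-- The Bernoulli action of the group with infinitely many copies has infinite cost. -/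
theorem attains_top : Attains (Gam ℕ) ⊤ := by
  have := gam_countable ℕ
  refine ⟨Bern (Gam ℕ), inferInstance, inferInstance, bernMeasure (Gam ℕ), inferInstance,
    inferInstance, inferInstance, inferInstance, bern_free (Gam ℕ), ?_⟩
  have h81 : ENNReal.ofReal (1 / 81) = (81 : ℝ≥0∞)⁻¹ := by
    rw [one_div, ENNReal.ofReal_inv_of_pos (by norm_num)]
    norm_num
  rw [eq_top_iff]
  refine le_of_forall_lt fun a ha => ?_
  have ha' : a ≠ ⊤ := ha.ne
  obtain ⟨n, hn⟩ := ENNReal.exists_nat_gt (ENNReal.mul_ne_top ha' (by simp : (81 : ℝ≥0∞) ≠ ⊤))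
  have h1 : a < (n : ℝ≥0∞) * ENNReal.ofReal (1 / 81) := by
    rw [h81, ← div_eq_mul_inv, ENNReal.lt_div_iff_mul_lt (Or.inl (by simp)) (Or.inl (by simp))]
    exact hn
  refine h1.trans_le (le_trans ?_ (le_actionCost_of_forall (bernMeasure (Gam ℕ))
    fun D hD hgen => lowerSt (Gam ℕ) ℕ gP gQ gT (multiData ℕ) (Finset.range n) D hD hgen))
  rw [Finset.card_range]
  exact le_add_self

theorem main_nat (hC : ConvSt) (hM : MidUpperSt) (c : ℝ≥0∞) : Attains (Gam ℕ) c ↔ 1 ≤ c := by
  have := gam_countable ℕ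
  have := gam_infinite ℕ
  refine ⟨one_le_of_attains, fun hc => ?_⟩
  rcases eq_or_ne c ⊤ with rfl | hct
  · exact attains_top
  · obtain ⟨n, hn⟩ := ENNReal.exists_nat_gt (ENNReal.mul_ne_top hct (by simp : (81 : ℝ≥0∞) ≠ ⊤))
    obtain ⟨d, hd1, hd2, hd3⟩ := attains_mid hM ℕ (Finset.range n)
    refine attains_Icc hC (attains_one ℕ) hd3 hd2 hc (le_trans ?_ hd1)
    rw [Finset.card_range]
    refine le_trans ?_ le_add_self
    rw [ENNReal.le_div_iff_mul_le (Or.inl (by simp)) (Or.inl (by simp))]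
    exact hn.le

theorem main_fin (hC : ConvSt) (hM : MidUpperSt) (k : ℕ) (c : ℝ≥0∞) (h1 : 1 ≤ c)
    (h2 : c ≤ 1 + (k : ℝ≥0∞) / 81) : Attains (Gam (Fin k)) c := by
  have := gam_countable (Fin k)
  obtain ⟨d, hd1, hd2, hd3⟩ := attains_mid hM (Fin k) Finset.univ
  refine attains_Icc hC (attains_one _) hd3 hd2 h1 (h2.trans (le_trans ?_ hd1))
  rw [Finset.card_univ, Fintype.card_fin]

end Vale.Agent.P189.M
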